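import Vale.Agent.P092.SR.Blocks

/-!
P092 (helper911): `TrStmt` of `SR/Blocks.lean`: the trace property of the sum over the target.
-/

set_option linter.all false

open scoped InnerProductSpace ENNReal NNReal
open MeasureTheory Filter Topology ContinuousLinearMap

namespace Vale.Agent.P092.H911

open Vale.Agent.P092.SR

theorem bij_quot {Γ : Type*} [Group Γ] (Θ : Subgroup Γ) :
    Function.Bijective fun p : (Γ ⧸ Θ) × Θ => p.1.out * (p.2 : Γ) := by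
  constructor
  · rintro ⟨q, θ⟩ ⟨q', θ'⟩ h
    have h' : q.out * (θ : Γ) = q'.out * (θ' : Γ) := h
    have h1 : q = q' := by
      have e1 : ((q.out * (θ : Γ) : Γ) : Γ ⧸ Θ) = q := by
        rw [QuotientGroup.mk_mul_of_mem _ θ.2, QuotientGroup.out_eq']
      have e2 : ((q'.out * (θ' : Γ) : Γ) : Γ ⧸ Θ) = q' := by
        rw [QuotientGroup.mk_mul_of_mem _ θ'.2, QuotientGroup.out_eq']
      rw [← e1, ← e2, h']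
    subst h1
    have h2 : (θ : Γ) = θ' := mul_left_cancel h'
    rw [Subtype.ext h2]
  · intro g
    have h1 : ((g : Γ ⧸ Θ)).out⁻¹ * g ∈ Θ := QuotientGroup.eq.mp (QuotientGroup.out_eq' _)
    exact ⟨((g : Γ ⧸ Θ), ⟨_, h1⟩), by simp⟩

theorem tsum_quot {Γ : Type*} [Group Γ] (Θ : Subgroup Γ) (f : Γ → ℝ≥0∞) :
    ∑' a, f a = ∑' q : Γ ⧸ Θ, ∑' θ : Θ, f (q.out * θ) := by
  rw [← (Equiv.ofBijective _ (bij_quot Θ)).tsum_eq, ENNReal.tsum_prod']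
  rfl

section

variable {ι Γ ℋ : Type} [Fintype ι] [Group Γ] [NormedAddCommGroup ℋ] [InnerProductSpace ℂ ℋ]
    [CompleteSpace ℋ] {V R₁ R₂ : Γ →* (ℋ →L[ℂ] ℋ)} {ξ : ι → ℋ}

theorem Tri.parse (hT : Tri V R₁ R₂ ξ) (v : ℋ) :
    ‖v‖ₑ ^ 2 = ∑' l, ∑' a, ∑' b, ‖⟪R₁ a (R₂ b (ξ l)), v⟫_ℂ‖ₑ ^ 2 := by
  have h1 := hT.frame v
  have h2 : ‖v‖ₑ ^ 2 = ENNReal.ofReal (‖v‖ ^ 2) := by
    rw [← ofReal_norm_eq_enorm, ENNReal.ofReal_pow (norm_nonneg _)]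
  have h3 : ∑' l, ∑' a, ∑' b, ‖⟪R₁ a (R₂ b (ξ l)), v⟫_ℂ‖ₑ ^ 2 =
      ∑' p : ι × Γ × Γ, ‖⟪R₁ p.2.1 (R₂ p.2.2 (ξ p.1)), v⟫_ℂ‖ₑ ^ 2 := by
    rw [ENNReal.tsum_prod']
    refine tsum_congr fun l => ?_
    rw [ENNReal.tsum_prod']
  rw [h2, h3, ← h1.tsum_eq, ENNReal.ofReal_tsum_of_nonneg (fun z => by positivity) h1.summable]
  refine tsum_congr fun z => ?_
  rw [← ofReal_norm_eq_enorm, ENNReal.ofReal_pow (norm_nonneg _)]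

theorem Tri.trace (hT : Tri V R₁ R₂ ξ) (Θ : Subgroup Γ) (x : ℋ →L[ℂ] ℋ)
    (h1 : ∀ g ∈ Θ, x * R₁ g = R₁ g * x) (h2 : ∀ g, x * R₂ g = R₂ g * x) :
    ∑' k, ∑' q : Γ ⧸ Θ, ‖x (R₁ (q.out)⁻¹ (ξ k))‖ₑ ^ 2 =
      ∑' k, ∑' q : Γ ⧸ Θ, ‖adjoint x (R₁ (q.out)⁻¹ (ξ k))‖ₑ ^ 2 := by
  have hexp : ∀ (y : ℋ →L[ℂ] ℋ) (k : ι) (q : Γ ⧸ Θ), ‖y (R₁ (q.out)⁻¹ (ξ k))‖ₑ ^ 2 =
      ∑' l, ∑' r : Γ ⧸ Θ, ∑' θ : Θ, ∑' b,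
        ‖⟪R₁ (r.out * θ)⁻¹ (R₂ b (ξ l)), y (R₁ (q.out)⁻¹ (ξ k))⟫_ℂ‖ₑ ^ 2 := by
    intro y k q
    rw [Tri.parse hT]
    refine tsum_congr fun l => ?_
    rw [← (Equiv.inv Γ).tsum_eq, tsum_quot Θ]
    rfl
  have hkey : ∀ (k l : ι) (q r : Γ ⧸ Θ) (θ : Θ) (b : Γ),
      ‖⟪R₁ (r.out * θ)⁻¹ (R₂ b (ξ l)), x (R₁ (q.out)⁻¹ (ξ k))⟫_ℂ‖ₑ ^ 2 =
      ‖⟪R₁ (q.out * (θ⁻¹ : Θ))⁻¹ (R₂ b⁻¹ (ξ k)), adjoint x (R₁ (r.out)⁻¹ (ξ l))⟫_ℂ‖ₑ ^ 2 := by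
    intro k l q r θ b
    have e1 : R₁ (r.out * θ)⁻¹ (R₂ b (ξ l)) = R₁ (θ : Γ)⁻¹ (R₂ b (R₁ (r.out)⁻¹ (ξ l))) := by
      have := congrArg (fun T : ℋ →L[ℂ] ℋ => T (ξ l)) (hT.comm₁₂ (r.out)⁻¹ b)
      change R₁ (r.out)⁻¹ (R₂ b (ξ l)) = R₂ b (R₁ (r.out)⁻¹ (ξ l)) at this
      rw [mul_inv_rev, map_mul, ContinuousLinearMap.mul_apply, this]
    have e2 : R₁ (q.out * (θ⁻¹ : Θ))⁻¹ (R₂ b⁻¹ (ξ k)) =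
        R₂ b⁻¹ (R₁ (θ : Γ) (R₁ (q.out)⁻¹ (ξ k))) := by
      have := congrArg (fun T : ℋ →L[ℂ] ℋ => T (ξ k)) (hT.comm₁₂ (q.out * (θ⁻¹ : Θ))⁻¹ b⁻¹)
      change R₁ (q.out * (θ⁻¹ : Θ))⁻¹ (R₂ b⁻¹ (ξ k)) =
        R₂ b⁻¹ (R₁ (q.out * (θ⁻¹ : Θ))⁻¹ (ξ k)) at this
      rw [this, mul_inv_rev, map_mul, ContinuousLinearMap.mul_apply, Subgroup.coe_inv, inv_inv]
    have e3 : ∀ v, x (R₁ (θ : Γ) v) = R₁ (θ : Γ) (x v) := fun v =>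
      congrArg (fun T : ℋ →L[ℂ] ℋ => T v) (h1 θ θ.2)
    have e4 : ∀ g v, x (R₂ g v) = R₂ g (x v) := fun g v =>
      congrArg (fun T : ℋ →L[ℂ] ℋ => T v) (h2 g)
    have a1 : ∀ g v w, ⟪R₁ g v, w⟫_ℂ = ⟪v, R₁ g⁻¹ w⟫_ℂ := fun g v w => by
      rw [← hT.adj₁, adjoint_inner_right]
    have a2 : ∀ g v w, ⟪R₂ g v, w⟫_ℂ = ⟪v, R₂ g⁻¹ w⟫_ℂ := fun g v w => by
      rw [← hT.adj₂, adjoint_inner_right]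
    have e5 : ⟪R₁ (r.out * θ)⁻¹ (R₂ b (ξ l)), x (R₁ (q.out)⁻¹ (ξ k))⟫_ℂ =
        ⟪R₁ (r.out)⁻¹ (ξ l), x (R₁ (q.out * (θ⁻¹ : Θ))⁻¹ (R₂ b⁻¹ (ξ k)))⟫_ℂ := by
      rw [e1, e2, a1, a2, inv_inv, e4, e3]
    rw [e5, adjoint_inner_right, ← inner_conj_symm, RCLike.enorm_conj]
  calc ∑' k, ∑' q : Γ ⧸ Θ, ‖x (R₁ (q.out)⁻¹ (ξ k))‖ₑ ^ 2
      = ∑' k, ∑' q : Γ ⧸ Θ, ∑' l, ∑' r : Γ ⧸ Θ, ∑' θ : Θ, ∑' b,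
        ‖⟪R₁ (q.out * (θ⁻¹ : Θ))⁻¹ (R₂ b⁻¹ (ξ k)), adjoint x (R₁ (r.out)⁻¹ (ξ l))⟫_ℂ‖ₑ ^ 2 := by
        refine tsum_congr fun k => tsum_congr fun q => ?_
        rw [hexp]
        exact tsum_congr fun l => tsum_congr fun r => tsum_congr fun θ => tsum_congr fun b =>
          hkey k l q r θ b
    _ = ∑' k, ∑' q : Γ ⧸ Θ, ∑' l, ∑' r : Γ ⧸ Θ, ∑' θ : Θ, ∑' b,
        ‖⟪R₁ (q.out * θ)⁻¹ (R₂ b (ξ k)), adjoint x (R₁ (r.out)⁻¹ (ξ l))⟫_ℂ‖ₑ ^ 2 := by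
        refine tsum_congr fun k => tsum_congr fun q => tsum_congr fun l => tsum_congr fun r => ?_
        rw [← (Equiv.inv Θ).tsum_eq]
        refine tsum_congr fun θ => ?_
        rw [← (Equiv.inv Γ).tsum_eq]
        simp only [Equiv.inv_apply, inv_inv]
    _ = ∑' l, ∑' r : Γ ⧸ Θ, ∑' k, ∑' q : Γ ⧸ Θ, ∑' θ : Θ, ∑' b,
        ‖⟪R₁ (q.out * θ)⁻¹ (R₂ b (ξ k)), adjoint x (R₁ (r.out)⁻¹ (ξ l))⟫_ℂ‖ₑ ^ 2 := by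
        have e1 : ∀ k, (∑' q : Γ ⧸ Θ, ∑' l, ∑' r : Γ ⧸ Θ, ∑' θ : Θ, ∑' b,
            ‖⟪R₁ (q.out * θ)⁻¹ (R₂ b (ξ k)), adjoint x (R₁ (r.out)⁻¹ (ξ l))⟫_ℂ‖ₑ ^ 2) =
            ∑' l, ∑' r : Γ ⧸ Θ, ∑' q : Γ ⧸ Θ, ∑' θ : Θ, ∑' b,
            ‖⟪R₁ (q.out * θ)⁻¹ (R₂ b (ξ k)), adjoint x (R₁ (r.out)⁻¹ (ξ l))⟫_ℂ‖ₑ ^ 2 := by
          intro k
          rw [ENNReal.tsum_comm]
          exact tsum_congr fun l => ENNReal.tsum_comm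
        rw [tsum_congr e1, ENNReal.tsum_comm]
        exact tsum_congr fun l => ENNReal.tsum_comm
    _ = _ := by
        refine tsum_congr fun l => tsum_congr fun r => ?_
        rw [hexp]

theorem trStmt : TrStmt := by
  intro ι Γ ℋ _ _ _ _ _ V R₁ R₂ ξ hT Θ x h1 h2 c hs
  have htr := Tri.trace hT Θ x h1 h2
  have hc : 0 ≤ c := hs.nonneg fun p => by positivity
  have conv : ∀ v : ℋ, ENNReal.ofReal (‖v‖ ^ 2) = ‖v‖ₑ ^ 2 := fun v => by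
    rw [← ofReal_norm_eq_enorm, ENNReal.ofReal_pow (norm_nonneg _)]
  have e1 : ENNReal.ofReal c = ∑' k, ∑' q : Γ ⧸ Θ, ‖x (R₁ (q.out)⁻¹ (ξ k))‖ₑ ^ 2 := by
    rw [← hs.tsum_eq, ENNReal.ofReal_tsum_of_nonneg (fun z => by positivity) hs.summable,
      ENNReal.tsum_prod']
    exact tsum_congr fun k => tsum_congr fun q => conv _
  have e2 : ∑' p : ι × (Γ ⧸ Θ), ENNReal.ofReal (‖adjoint x (R₁ (p.2.out)⁻¹ (ξ p.1))‖ ^ 2) =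
      ENNReal.ofReal c := by
    rw [e1, htr, ENNReal.tsum_prod']
    exact tsum_congr fun k => tsum_congr fun q => conv _
  have hne : ∑' p : ι × (Γ ⧸ Θ), ENNReal.ofReal (‖adjoint x (R₁ (p.2.out)⁻¹ (ξ p.1))‖ ^ 2) ≠ ⊤ := by
    rw [e2]
    exact ENNReal.ofReal_ne_top
  have hsum : Summable fun p : ι × (Γ ⧸ Θ) => ‖adjoint x (R₁ (p.2.out)⁻¹ (ξ p.1))‖ ^ 2 := by
    have := ENNReal.summable_toReal hne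
    refine this.congr fun p => ?_
    rw [ENNReal.toReal_ofReal (by positivity)]
  have hval : ∑' p : ι × (Γ ⧸ Θ), ‖adjoint x (R₁ (p.2.out)⁻¹ (ξ p.1))‖ ^ 2 = c := by
    have h3 := ENNReal.ofReal_tsum_of_nonneg (fun p => by positivity) hsum
    rw [e2] at h3
    rwa [ENNReal.ofReal_eq_ofReal_iff (tsum_nonneg fun p => by positivity) hc] at h3
  rw [← hval]
  exact hsum.hasSum

end

end Vale.Agent.P092.H911
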