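import Vale.Agent.P092.SR.Defs
import Vale.Agent.P092.H515.LatSl

/-!
P092 (helper911), block B-5: group theoretic glue: from `GoodGrp` and `Irr` to the instances and to
the lattice in `G₁ × G₂`.
-/

set_option linter.all false

open scoped InnerProductSpace ENNReal NNReal
open MeasureTheory Filter Topology ContinuousLinearMap

namespace Vale.Agent.P092.H911

open Vale.Agent.P092.SR

section good

variable {H : Type} [Group H] [TopologicalSpace H]

theorem GoodGrp.nonarch (h : GoodGrp H) : @NonarchimedeanGroup H _ _ :=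
  letI := h.top
  { is_nonarchimedean := fun U hU => by
      obtain ⟨V, hVU, hV, h1⟩ := mem_nhds_iff.mp hU
      obtain ⟨K, hK, hKV⟩ := h.basis V hV h1
      exact ⟨⟨K, hK.2⟩, hKV.trans hVU⟩ }

theorem GoodGrp.loc (h : GoodGrp H) : LocallyCompactSpace H := by
  have := h.top
  obtain ⟨K, hK, -⟩ := h.basis Set.univ isOpen_univ (Set.mem_univ _)
  exact hK.1.locallyCompactSpace_of_mem_nhds_of_group (hK.2.mem_nhds K.one_mem)

theorem GoodGrp.rightInv (h : GoodGrp H) [IsTopologicalGroup H] [LocallyCompactSpace H]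
    [T2Space H] [SecondCountableTopology H] [MeasurableSpace H] [BorelSpace H] (μ : Measure H)
    [μ.IsHaarMeasure] : μ.IsMulRightInvariant := by
  refine H515.rightInv_of_modChar μ fun g => H515.modChar_of_perfect (fun f => ?_) g
  have h1 : commutator H ≤ f.ker := Abelianization.commutator_subset_ker f
  rw [h.perfect] at h1
  ext x
  have h2 : x ∈ f.ker := h1 (Subgroup.mem_top x)
  rw [MonoidHom.mem_ker] at h2
  rw [h2]
  rfl

end good

theorem lat_of_st {E : Type} [Group E] [TopologicalSpace E] {Λ : Subgroup E}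
    (h : H515.St.IsLattice Λ) : H515.IsLattice Λ := ⟨h.disc, h.covol⟩

theorem st_of_lat {E : Type} [Group E] [TopologicalSpace E] {Λ : Subgroup E}
    (h : H515.IsLattice Λ) : H515.St.IsLattice Λ := ⟨h.disc, h.covol⟩

variable {Γ G₁ G₂ : Type} [Group Γ] [Group G₁] [Group G₂] [TopologicalSpace G₁]
    [TopologicalSpace G₂] {p₁ : Γ →* G₁} {p₂ : Γ →* G₂}

/-- The group `Γ` is a lattice in `G₁ × G₂`. -/
theorem Irr.lattice (h₁ : GoodGrp G₁) (h₂ : GoodGrp G₂) (hI : Irr p₁ p₂) :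
    H515.St.IsLattice (p₁.prod p₂).range := by
  haveI := h₁.top
  haveI := h₂.top
  haveI := h₁.t2
  haveI := h₂.t2
  haveI := h₁.sc
  haveI := h₂.sc
  haveI := GoodGrp.loc h₁
  haveI := GoodGrp.loc h₂
  borelize G₁
  borelize G₂
  obtain ⟨μ₁, hμ₁⟩ : ∃ μ : Measure G₁, μ = Measure.haar := ⟨_, rfl⟩
  obtain ⟨μ₂, hμ₂⟩ : ∃ μ : Measure G₂, μ = Measure.haar := ⟨_, rfl⟩
  haveI : μ₁.IsHaarMeasure := by rw [hμ₁]; infer_instance
  haveI : μ₂.IsHaarMeasure := by rw [hμ₂]; infer_instance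
  haveI := GoodGrp.rightInv h₁ μ₁
  haveI := GoodGrp.rightInv h₂ μ₂
  obtain ⟨L₁, hL₁, -⟩ := h₁.basis Set.univ isOpen_univ (Set.mem_univ _)
  obtain ⟨L₂, hL₂, -⟩ := h₂.basis Set.univ isOpen_univ (Set.mem_univ _)
  haveI : DiscreteTopology (p₁.prod p₂).range := by
    refine discreteTopology_of_isOpen_singleton_one ?_
    have hfin : (Subtype.val ⁻¹' ((L₁ : Set G₁) ×ˢ (L₂ : Set G₂)) :
        Set (p₁.prod p₂).range).Finite := by
      refine Set.Finite.of_finite_image (f := Subtype.val) ?_ Subtype.val_injective.injOn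
      refine ((hI.disc _ _ hL₁.1 hL₂.1).image (p₁.prod p₂)).subset ?_
      rintro _ ⟨⟨_, ⟨g, rfl⟩⟩, hx, rfl⟩
      exact ⟨g, hx, rfl⟩
    have hop : IsOpen (Subtype.val ⁻¹' ((L₁ : Set G₁) ×ˢ (L₂ : Set G₂)) :
        Set (p₁.prod p₂).range) := (hL₁.2.prod hL₂.2).preimage continuous_subtype_val
    have hcl : IsClosed ((Subtype.val ⁻¹' ((L₁ : Set G₁) ×ˢ (L₂ : Set G₂)) :
        Set (p₁.prod p₂).range) \ {1}) := (hfin.subset Set.diff_subset).isClosed
    have e : ({1} : Set (p₁.prod p₂).range) =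
        (Subtype.val ⁻¹' ((L₁ : Set G₁) ×ˢ (L₂ : Set G₂))) ∩
        ((Subtype.val ⁻¹' ((L₁ : Set G₁) ×ˢ (L₂ : Set G₂)) :
        Set (p₁.prod p₂).range) \ {1})ᶜ := by
      ext x
      constructor
      · rintro rfl
        exact ⟨⟨L₁.one_mem, L₂.one_mem⟩, fun h => h.2 rfl⟩
      · rintro ⟨h1, h2⟩
        by_contra hne
        exact h2 ⟨h1, hne⟩
    rw [e]
    exact hop.inter hcl.isOpen_compl
  obtain ⟨F, hF, hFt, -, hcov, -⟩ := H515.IsLattice.exists_fdom_right μ₁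
    (lat_of_st (hI.lat₁ L₂ hL₂))
  refine st_of_lat (H515.isLattice_of_cover (p₁.prod p₂).range (μ₁.prod μ₂) (F := F ×ˢ (L₂ : Set G₂)) ?_ ?_)
  · rw [Measure.prod_prod]
    exact ENNReal.mul_lt_top hFt hL₂.1.measure_lt_top
  · rintro ⟨x, y⟩
    obtain ⟨g, hg⟩ := hI.dense₂.exists_mem_open (s := (fun z => y * z) ⁻¹' (L₂ : Set G₂))
      (hL₂.2.preimage (continuous_const_mul y)) ⟨y⁻¹, by
        rw [Set.mem_preimage, mul_inv_cancel]
        exact L₂.one_mem⟩
    obtain ⟨⟨_, ⟨v, hv, rfl⟩⟩, hvF, -⟩ := hcov (x * p₁ g)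
    refine ⟨⟨(p₁.prod p₂) (g * v), ⟨g * v, rfl⟩⟩, ?_, ?_⟩
    · change x * p₁ (g * v) ∈ F
      rw [map_mul, ← mul_assoc]
      exact hvF
    · change y * p₂ (g * v) ∈ L₂
      rw [map_mul, ← mul_assoc]
      exact L₂.mul_mem hg hv

end Vale.Agent.P092.H911
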