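import Vale.Agent.P092.H911.Avg
import Vale.Agent.P092.H911.Grp
import Vale.Agent.P092.SR.BlocksR

/-!
P092 (helper911), blocks B-5 and B-6 in the letters of `SR/Defs.lean`: the families of the two
places commute, in the same leg and in different legs.
-/

set_option linter.all false

open scoped InnerProductSpace ENNReal NNReal
open MeasureTheory Filter Topology ContinuousLinearMap

namespace Vale.Agent.P092.H911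

open Vale.Agent.P092.SR

variable {ι Γ G₁ G₂ ℋ : Type} [Fintype ι] [Group Γ] [Group G₁] [Group G₂] [TopologicalSpace G₁]
    [TopologicalSpace G₂] [NormedAddCommGroup ℋ] [InnerProductSpace ℂ ℋ] [CompleteSpace ℋ]

theorem PFam.fam {H : Type} [Group H] [TopologicalSpace H] {p q : Γ →* H}
    {S T : Γ →* (ℋ →L[ℂ] ℋ)} {sc : Set (ℋ →L[ℂ] ℋ)} {P : Set H → (ℋ →L[ℂ] ℋ)}
    (h : PFam p q S T sc P) : Fam P :=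
  ⟨fun A hA => h.adj A hA, fun A B hA hB => h.mul A B hA hB,
    fun A B hA hB hd => h.add A B hA hB hd, fun ξ hξ => h.nondeg ξ hξ⟩

theorem PFam.cS {H : Type} [Group H] [TopologicalSpace H] {p q : Γ →* H}
    {S T : Γ →* (ℋ →L[ℂ] ℋ)} {sc : Set (ℋ →L[ℂ] ℋ)} {P : Set H → (ℋ →L[ℂ] ℋ)}
    (h : PFam p q S T sc P) (g : Γ) {A : Set H} (hA : H911.CO A) :
    S g * P A = P (tr (p g)⁻¹ 1 A) * S g := by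
  have h1 := h.covS g A hA
  have e : (fun x => p g * x) '' A = tr (p g)⁻¹ 1 A := by
    ext c
    rw [mem_tr, mul_one]
    constructor
    · rintro ⟨x, hx, rfl⟩
      simpa using hx
    · intro hc
      exact ⟨_, hc, by group⟩
  rw [e] at h1
  rw [← h1, mul_assoc, ← map_mul, inv_mul_cancel, map_one, mul_one]

theorem PFam.cT {H : Type} [Group H] [TopologicalSpace H] {p q : Γ →* H}
    {S T : Γ →* (ℋ →L[ℂ] ℋ)} {sc : Set (ℋ →L[ℂ] ℋ)} {P : Set H → (ℋ →L[ℂ] ℋ)}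
    (h : PFam p q S T sc P) (g : Γ) {A : Set H} (hA : H911.CO A) :
    T g * P A = P (tr 1 (q g) A) * T g := by
  have h1 := h.covT g A hA
  have e : (fun x => x * (q g)⁻¹) '' A = tr 1 (q g) A := by
    ext c
    rw [mem_tr, one_mul]
    constructor
    · rintro ⟨x, hx, rfl⟩
      simpa using hx
    · intro hc
      exact ⟨_, hc, by group⟩
  rw [e] at h1
  rw [← h1, mul_assoc, ← map_mul, inv_mul_cancel, map_one, mul_one]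

/-- the product of the two target representations -/
noncomputable def RR (R₁ R₂ : Γ →* (ℋ →L[ℂ] ℋ)) (hc : ∀ g h, R₁ g * R₂ h = R₂ h * R₁ g) :
    Γ × Γ →* (ℋ →L[ℂ] ℋ) where
  toFun z := R₁ z.1 * R₂ z.2
  map_one' := by rw [Prod.fst_one, Prod.snd_one, map_one, map_one, one_mul]
  map_mul' x y := by
    rw [Prod.fst_mul, Prod.snd_mul, map_mul, map_mul, mul_assoc, ← mul_assoc (R₁ y.1), hc,
      mul_assoc, mul_assoc]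

/-- **B-5 and B-6.** Families of the two places commute; `k = true`: both in the first leg,
`k = false`: in different legs. -/
theorem com56_gen [Countable Γ] {p₁ : Γ →* G₁} {p₂ : Γ →* G₂} (h₁ : GoodGrp G₁)
    (h₂ : GoodGrp G₂) (hI : LatPair p₁ p₂) {V R₁ R₂ : Γ →* (ℋ →L[ℂ] ℋ)} {ξ : ι → ℋ} (hT : Tri V R₁ R₂ ξ)
    {P₁ : Set G₁ → (ℋ →L[ℂ] ℋ)} {P₂ : Set G₂ → (ℋ →L[ℂ] ℋ)} (hF₁ : Fam P₁) (hF₂ : Fam P₂)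
    (cV₁ : ∀ g A, H911.CO A → V g * P₁ A = P₁ (tr (p₁ g)⁻¹ 1 A) * V g)
    (cV₂ : ∀ g A, H911.CO A → V g * P₂ A = P₂ (tr (p₂ g)⁻¹ 1 A) * V g)
    (π : Γ × Γ →* G₁ × G₂)
    (cR₁ : ∀ z A, H911.CO A → RR R₁ R₂ hT.comm₁₂ z * P₁ A =
      P₁ (tr 1 (π z).1 A) * RR R₁ R₂ hT.comm₁₂ z)
    (cR₂ : ∀ z A, H911.CO A → RR R₁ R₂ hT.comm₁₂ z * P₂ A =
      P₂ (tr 1 (π z).2 A) * RR R₁ R₂ hT.comm₁₂ z)
    {C : Set G₁} {D : Set G₂} (hC : SR.CO C) (hD : SR.CO D) : P₁ C * P₂ D = P₂ D * P₁ C := by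
  haveI := h₁.top
  haveI := h₂.top
  haveI := h₁.t2
  haveI := h₂.t2
  haveI := h₁.sc
  haveI := h₂.sc
  haveI := GoodGrp.loc h₁
  haveI := GoodGrp.loc h₂
  haveI := GoodGrp.nonarch h₁
  haveI := GoodGrp.nonarch h₂
  borelize G₁
  borelize G₂
  obtain ⟨μ₁, hμ₁⟩ : ∃ μ : Measure G₁, μ = Measure.haar := ⟨_, rfl⟩
  obtain ⟨μ₂, hμ₂⟩ : ∃ μ : Measure G₂, μ = Measure.haar := ⟨_, rfl⟩
  haveI : μ₁.IsHaarMeasure := by rw [hμ₁]; infer_instance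
  haveI : μ₂.IsHaarMeasure := by rw [hμ₂]; infer_instance
  haveI := GoodGrp.rightInv h₁ μ₁
  haveI := GoodGrp.rightInv h₂ μ₂
  obtain ⟨Λ, hL, hΛ⟩ := hI
  letI : MeasurableSpace ((G₁ × G₂) ⧸ Λ) := borel _
  haveI : BorelSpace ((G₁ × G₂) ⧸ Λ) := ⟨rfl⟩
  obtain ⟨ν, hP, hν⟩ := H515.IsLattice.exists_prob (lat_of_st hL)
  have d : Dat (RR R₁ R₂ hT.comm₁₂) V ξ (p₁.prod p₂) π P₁ P₂ := by
    refine ⟨?_, hT.adjV, ?_, ?_, hF₁, hF₂, cV₁, cV₂, cR₁, cR₂⟩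
    · intro z
      change adjoint (R₁ z.1 * R₂ z.2) = R₁ z.1⁻¹ * R₂ z.2⁻¹
      rw [adj_mul, hT.adj₁, hT.adj₂, hT.comm₁₂]
    · intro g z
      change V g * (R₁ z.1 * R₂ z.2) = (R₁ z.1 * R₂ z.2) * V g
      rw [← mul_assoc, hT.comm₁, mul_assoc, hT.comm₂, mul_assoc]
    · intro v
      exact hT.frame v
  exact d.commute μ₁ μ₂ Λ hΛ ν hν (fun z hz => h₁.recur z hz) (IsProbabilityMeasure.ne_zero ν) hC hD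

/-- **B-5**: same leg, different places. -/
theorem com5R [Countable Γ] {p₁ : Γ →* G₁} {p₂ : Γ →* G₂} (h₁ : GoodGrp G₁)
    (h₂ : GoodGrp G₂) (hI : LatPair p₁ p₂) {V R₁ R₂ : Γ →* (ℋ →L[ℂ] ℋ)} {ξ : ι → ℋ} (hT : Tri V R₁ R₂ ξ)
    {q₁ : Γ →* G₁} {q₂ : Γ →* G₂} {P₁ : Set G₁ → (ℋ →L[ℂ] ℋ)} {P₂ : Set G₂ → (ℋ →L[ℂ] ℋ)}
    (hP₁ : PFam p₁ q₁ V R₁ (Set.range R₂) P₁) (hP₂ : PFam p₂ q₂ V R₁ (Set.range R₂) P₂)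
    {C : Set G₁} {D : Set G₂} (hC : SR.CO C) (hD : SR.CO D) : P₁ C * P₂ D = P₂ D * P₁ C := by
  refine com56_gen h₁ h₂ hI hT (PFam.fam hP₁) (PFam.fam hP₂) (fun g A hA => PFam.cS hP₁ g hA)
    (fun g A hA => PFam.cS hP₂ g hA)
    ((q₁.comp (MonoidHom.fst Γ Γ)).prod (q₂.comp (MonoidHom.fst Γ Γ))) ?_ ?_ hC hD
  · intro z A hA
    change R₁ z.1 * R₂ z.2 * P₁ A = P₁ (tr 1 (q₁ z.1) A) * (R₁ z.1 * R₂ z.2)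
    rw [mul_assoc, hP₁.comm (R₂ z.2) ⟨z.2, rfl⟩ A hA, ← mul_assoc, PFam.cT hP₁ z.1 hA, mul_assoc]
  · intro z A hA
    change R₁ z.1 * R₂ z.2 * P₂ A = P₂ (tr 1 (q₂ z.1) A) * (R₁ z.1 * R₂ z.2)
    rw [mul_assoc, hP₂.comm (R₂ z.2) ⟨z.2, rfl⟩ A hA, ← mul_assoc, PFam.cT hP₂ z.1 hA, mul_assoc]

/-- **B-6**: different legs, different places. -/
theorem com6R [Countable Γ] {p₁ : Γ →* G₁} {p₂ : Γ →* G₂} (h₁ : GoodGrp G₁)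
    (h₂ : GoodGrp G₂) (hI : LatPair p₁ p₂) {V R₁ R₂ : Γ →* (ℋ →L[ℂ] ℋ)} {ξ : ι → ℋ} (hT : Tri V R₁ R₂ ξ)
    {q₁ : Γ →* G₁} {q₂ : Γ →* G₂} {P₁ : Set G₁ → (ℋ →L[ℂ] ℋ)} {P₂ : Set G₂ → (ℋ →L[ℂ] ℋ)}
    (hP₁ : PFam p₁ q₁ V R₁ (Set.range R₂) P₁) (hP₂ : PFam p₂ q₂ V R₂ (Set.range R₁) P₂)
    {C : Set G₁} {D : Set G₂} (hC : SR.CO C) (hD : SR.CO D) : P₁ C * P₂ D = P₂ D * P₁ C := by
  refine com56_gen h₁ h₂ hI hT (PFam.fam hP₁) (PFam.fam hP₂) (fun g A hA => PFam.cS hP₁ g hA)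
    (fun g A hA => PFam.cS hP₂ g hA)
    ((q₁.comp (MonoidHom.fst Γ Γ)).prod (q₂.comp (MonoidHom.snd Γ Γ))) ?_ ?_ hC hD
  · intro z A hA
    change R₁ z.1 * R₂ z.2 * P₁ A = P₁ (tr 1 (q₁ z.1) A) * (R₁ z.1 * R₂ z.2)
    rw [mul_assoc, hP₁.comm (R₂ z.2) ⟨z.2, rfl⟩ A hA, ← mul_assoc, PFam.cT hP₁ z.1 hA, mul_assoc]
  · intro z A hA
    change R₁ z.1 * R₂ z.2 * P₂ A = P₂ (tr 1 (q₂ z.2) A) * (R₁ z.1 * R₂ z.2)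
    rw [hT.comm₁₂, mul_assoc, hP₂.comm (R₁ z.1) ⟨z.1, rfl⟩ A hA, ← mul_assoc,
      PFam.cT hP₂ z.2 hA, mul_assoc]

theorem Irr.latPair {p₁ : Γ →* G₁} {p₂ : Γ →* G₂} (h₁ : GoodGrp G₁) (h₂ : GoodGrp G₂)
    (hI : Irr p₁ p₂) : LatPair p₁ p₂ := ⟨_, Irr.lattice h₁ h₂ hI, le_rfl⟩

theorem com5 {p₁ : Γ →* G₁} {p₂ : Γ →* G₂} (h₁ : GoodGrp G₁) (h₂ : GoodGrp G₂)
    (hI : Irr p₁ p₂) {V R₁ R₂ : Γ →* (ℋ →L[ℂ] ℋ)} {ξ : ι → ℋ} (hT : Tri V R₁ R₂ ξ)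
    {q₁ : Γ →* G₁} {q₂ : Γ →* G₂} {P₁ : Set G₁ → (ℋ →L[ℂ] ℋ)} {P₂ : Set G₂ → (ℋ →L[ℂ] ℋ)}
    (hP₁ : PFam p₁ q₁ V R₁ (Set.range R₂) P₁) (hP₂ : PFam p₂ q₂ V R₁ (Set.range R₂) P₂)
    {C : Set G₁} {D : Set G₂} (hC : SR.CO C) (hD : SR.CO D) : P₁ C * P₂ D = P₂ D * P₁ C := by
  haveI := hI.countable
  exact com5R h₁ h₂ (Irr.latPair h₁ h₂ hI) hT hP₁ hP₂ hC hD

theorem com6 {p₁ : Γ →* G₁} {p₂ : Γ →* G₂} (h₁ : GoodGrp G₁) (h₂ : GoodGrp G₂)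
    (hI : Irr p₁ p₂) {V R₁ R₂ : Γ →* (ℋ →L[ℂ] ℋ)} {ξ : ι → ℋ} (hT : Tri V R₁ R₂ ξ)
    {q₁ : Γ →* G₁} {q₂ : Γ →* G₂} {P₁ : Set G₁ → (ℋ →L[ℂ] ℋ)} {P₂ : Set G₂ → (ℋ →L[ℂ] ℋ)}
    (hP₁ : PFam p₁ q₁ V R₁ (Set.range R₂) P₁) (hP₂ : PFam p₂ q₂ V R₂ (Set.range R₁) P₂)
    {C : Set G₁} {D : Set G₂} (hC : SR.CO C) (hD : SR.CO D) : P₁ C * P₂ D = P₂ D * P₁ C := by
  haveI := hI.countable
  exact com6R h₁ h₂ (Irr.latPair h₁ h₂ hI) hT hP₁ hP₂ hC hD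

/-- The literal of `H133.Com56`. -/
theorem com56 : ∀ (Γ G₁ G₂ ℋ : Type) [Group Γ] [Group G₁] [Group G₂] [TopologicalSpace G₁]
    [TopologicalSpace G₂] [NormedAddCommGroup ℋ] [InnerProductSpace ℂ ℋ] [CompleteSpace ℋ]
    (p₁ : Γ →* G₁) (p₂ : Γ →* G₂), GoodGrp G₁ → GoodGrp G₂ → Irr p₁ p₂ →
    ∀ (V R₁ R₂ : Γ →* (ℋ →L[ℂ] ℋ)) (ξ : Unit → ℋ), Tri V R₁ R₂ ξ →
    ∀ (q₁ : Γ →* G₁) (q₂ : Γ →* G₂) (P₁ : Set G₁ → (ℋ →L[ℂ] ℋ)) (P₂ : Set G₂ → (ℋ →L[ℂ] ℋ)),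
      ((PFam p₁ q₁ V R₁ (Set.range R₂) P₁ ∧ PFam p₂ q₂ V R₁ (Set.range R₂) P₂) ∨
        (PFam p₁ q₁ V R₁ (Set.range R₂) P₁ ∧ PFam p₂ q₂ V R₂ (Set.range R₁) P₂)) →
      ∀ C D, SR.CO C → SR.CO D → P₁ C * P₂ D = P₂ D * P₁ C := by
  intro Γ G₁ G₂ ℋ _ _ _ _ _ _ _ _ p₁ p₂ h₁ h₂ hI V R₁ R₂ ξ hT q₁ q₂ P₁ P₂ h C D hC hD
  rcases h with ⟨hP₁, hP₂⟩ | ⟨hP₁, hP₂⟩
  · exact com5 h₁ h₂ hI hT hP₁ hP₂ hC hD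
  · exact com6 h₁ h₂ hI hT hP₁ hP₂ hC hD

end Vale.Agent.P092.H911
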