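import Vale.Agent.P092.SR.Blocks
import Vale.Agent.P092.H911.Com56

/-!
P092 (helper911): `C5Stmt` and `C6Stmt` of `SR/Blocks.lean`.
-/

set_option linter.all false

open scoped InnerProductSpace ENNReal NNReal
open MeasureTheory Filter Topology ContinuousLinearMap

namespace Vale.Agent.P092.H911

open Vale.Agent.P092.SR

theorem c5Stmt : C5Stmt := by
  intro ι Γ H₁ H₂ ℋ _ _ _ _ _ _ _ _ _ V R₁ R₂ ξ p₁ q₁ p₂ q₂ hT h₁ h₂ hI _ P₁ P₂ hP₁ hP₂ C D hC hD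
  exact com5 h₁ h₂ hI hT hP₁ hP₂ hC hD

theorem c6Stmt : C6Stmt := by
  intro ι Γ H₁ H₂ ℋ _ _ _ _ _ _ _ _ _ V R₁ R₂ ξ p₁ q₁ r₁ p₂ q₂ r₂ hT h₁ h₂ hI _ _ P₁ P₂ hP₁ hP₂
    C D hC hD
  exact com6 h₁ h₂ hI hT hP₁ hP₂ hC hD

theorem c5RStmt : C5RStmt := by
  intro ι Γ H₁ H₂ ℋ _ _ _ _ _ _ _ _ _ _ V R₁ R₂ ξ p₁ q₁ p₂ q₂ hT h₁ h₂ hI P₁ P₂ hP₁ hP₂ C D hC hD
  exact com5R h₁ h₂ hI hT hP₁ hP₂ hC hD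

theorem c6RStmt : C6RStmt := by
  intro ι Γ H₁ H₂ ℋ _ _ _ _ _ _ _ _ _ _ V R₁ R₂ ξ p₁ q₁ p₂ r₂ hT h₁ h₂ hI P₁ P₂ hP₁ hP₂ C D hC hD
  exact com6R h₁ h₂ hI hT hP₁ hP₂ hC hD

end Vale.Agent.P092.H911
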