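import Vale.Agent.P092.H911.Bd

/-!
P092 (helper911), block B-5: a bounded bi-invariant bi-additive function of two compact open sets
vanishes for disjoint sets.
-/

set_option linter.all false

open scoped InnerProductSpace ENNReal
open MeasureTheory Filter Topology ContinuousLinearMap

namespace Vale.Agent.P092.H911

variable {G : Type*} [Group G] [TopologicalSpace G]

/-- Every nontrivial element has a neighbourhood with infinitely many disjoint conjugates. -/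
def Recur (G : Type*) [Group G] [TopologicalSpace G] : Prop :=
  ∀ z : G, z ≠ 1 → ∃ E ∈ 𝓝 z, ∃ a : ℕ → G, Pairwise fun i j =>
    Disjoint ((fun y => a i * y * (a i)⁻¹) '' E) ((fun y => a j * y * (a j)⁻¹) '' E)

/-- bounded bi-invariant bi-additive functions -/
structure BI [MeasurableSpace G] (μ : Measure G) (c : ℝ≥0∞) (K : Set G → Set G → ℝ≥0∞) :
    Prop where
  symm : ∀ A B, CO A → CO B → K A B = K B A
  add : ∀ A, CO A → FA (K A)
  emp : ∀ A, CO A → K A ∅ = 0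
  inv : ∀ A B, CO A → CO B → ∀ a b, K (tr a b A) (tr a b B) = K A B
  bd : ∀ A B, CO A → CO B → K A B ≤ c * μ A

namespace BI

variable [MeasurableSpace G] {μ : Measure G} {c : ℝ≥0∞} {K : Set G → Set G → ℝ≥0∞} [T2Space G]

theorem mono_right (h : BI μ c K) {A B B' : Set G} (hA : CO A) (hB : CO B) (hB' : CO B')
    (hs : B ⊆ B') : K A B ≤ K A B' := (h.add A hA).mono hB hB' hs

theorem mono_left (h : BI μ c K) {A A' B : Set G} (hA : CO A) (hA' : CO A') (hB : CO B)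
    (hs : A ⊆ A') : K A B ≤ K A' B := by
  rw [h.symm A B hA hB, h.symm A' B hA' hB]
  exact h.mono_right hB hA hA' hs

theorem sub_right (h : BI μ c K) {A B B' : Set G} (hA : CO A) (hB : CO B) (hB' : CO B') :
    K A (B ∪ B') ≤ K A B + K A B' := by
  have h1 : B ∪ B' = B ∪ (B' \ B) := Set.union_diff_self.symm
  rw [h1, h.add A hA B (B' \ B) hB (hB'.diff hB) Set.disjoint_sdiff_right]
  gcongr
  exact h.mono_right hA (hB'.diff hB) hB' Set.diff_subset

theorem sub_left (h : BI μ c K) {A A' B : Set G} (hA : CO A) (hA' : CO A') (hB : CO B) :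
    K (A ∪ A') B ≤ K A B + K A' B := by
  rw [h.symm _ B (hA.union hA') hB, h.symm A B hA hB, h.symm A' B hA' hB]
  exact h.sub_right hB hA hA'

variable [IsTopologicalGroup G] [SecondCountableTopology G] [BorelSpace G]
  [μ.IsMulLeftInvariant]

/-- change of the subgroup -/
theorem index (h : BI μ c K) {L L' : Subgroup G} (hL : CO (L : Set G)) (hL' : CO (L' : Set G))
    (hLL : L' ≤ L) {A : Set G} (hA : CO A) (hAL : ∀ l ∈ L, ∀ g, l * g ∈ A ↔ g ∈ A) :
    K L A * μ L' = K L' A * μ L := by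
  classical
  obtain ⟨s, hsL, hsd, hs⟩ := coset_dec hL L' hL'.2 (fun g k hk => by
    rw [SetLike.mem_coe, SetLike.mem_coe]
    exact L.mul_mem_cancel_right (hLL hk))
  have h1 : ∀ u ∈ s, K A (tr u⁻¹ 1 (L' : Set G)) = K L' A := by
    intro u hu
    have e : A = tr u⁻¹ 1 A := by
      ext g
      rw [mem_tr, mul_one]
      exact (hAL _ (L.inv_mem (hsL u hu)) g).symm
    conv_lhs => rw [e]
    rw [h.inv A L' hA hL', h.symm A L' hA hL']
  have h2 : K A (L : Set G) = s.card * K L' A := by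
    conv_lhs => rw [hs]
    rw [(h.add A hA).sum (h.emp A hA) s (fun u _ => hL'.tr _ _) (fun u hu v hv huv => by
      have := coset_disj L' (a := 1) (b := 1) (hsd u hu v hv huv)
      simpa [mul_one] using this), Finset.sum_congr rfl h1, Finset.sum_const, nsmul_eq_mul]
  rw [h.symm L A hL hA, h2, meas_dec μ hL'.2 hsd hs]
  ring

theorem index' (h : BI μ c K) {L L' : Subgroup G} (hL : CO (L : Set G)) (hL' : CO (L' : Set G))
    {A : Set G} (hA : CO A) (hAL : ∀ l ∈ L, ∀ g, l * g ∈ A ↔ g ∈ A)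
    (hAL' : ∀ l ∈ L', ∀ g, l * g ∈ A ↔ g ∈ A) [μ.IsOpenPosMeasure] [IsFiniteMeasureOnCompacts μ] :
    K L A * μ L' = K L' A * μ L := by
  have hM : CO ((L ⊓ L' : Subgroup G) : Set G) := by
    rw [Subgroup.coe_inf]
    exact hL.inter hL'
  have h1 := h.index hL hM inf_le_left hA hAL
  have h2 := h.index hL' hM inf_le_right hA hAL'
  have h0 : μ ((L ⊓ L' : Subgroup G) : Set G) ≠ 0 :=
    (hM.2.measure_pos μ ⟨1, (L ⊓ L').one_mem⟩).ne'
  have ht : μ ((L ⊓ L' : Subgroup G) : Set G) ≠ ⊤ := hM.1.measure_lt_top.ne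
  have h3 : K L A * μ L' * μ ((L ⊓ L' : Subgroup G) : Set G) =
      K L' A * μ L * μ ((L ⊓ L' : Subgroup G) : Set G) := by
    calc K L A * μ L' * μ ((L ⊓ L' : Subgroup G) : Set G)
        = (K L A * μ ((L ⊓ L' : Subgroup G) : Set G)) * μ L' := by ring
      _ = (K L' A * μ ((L ⊓ L' : Subgroup G) : Set G)) * μ L := by rw [h1, h2]; ring
      _ = _ := by ring
  exact (ENNReal.mul_left_inj h0 ht).mp h3

variable [NonarchimedeanGroup G] [LocallyCompactSpace G] [μ.IsOpenPosMeasure]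
  [IsFiniteMeasureOnCompacts μ] [μ.IsMulRightInvariant]

theorem null (h : BI μ c K) (hc : c ≠ ⊤) {L : Subgroup G} (hL : CO (L : Set G)) {A : Set G}
    (hA : CO A) (hAL : ∀ l ∈ L, ∀ g, l * g ∈ A ↔ g ∈ A) {a : ℕ → G}
    (ha : Pairwise fun i j => Disjoint (tr (a i)⁻¹ (a i) A) (tr (a j)⁻¹ (a j) A)) :
    K L A = 0 := by
  classical
  have hL0 : μ L ≠ 0 := (hL.2.measure_pos μ ⟨1, L.one_mem⟩).ne'
  have hLt : μ L ≠ ⊤ := hL.1.measure_lt_top.ne
  have key : ∀ N : ℕ, (N : ℝ≥0∞) * K L A ≤ c * μ L := by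
    intro N
    obtain ⟨M, hM, hMA⟩ := exists_sub (p := fun k => ∀ j ∈ Finset.range N,
      ∀ g, k * g ∈ tr (a j)⁻¹ (a j) A ↔ g ∈ tr (a j)⁻¹ (a j) A) (by
        rw [Finset.eventually_all]
        exact fun j _ => stabL (hA.tr _ _))
    have h1 : ∀ j ∈ Finset.range N, K M (tr (a j)⁻¹ (a j) A) * μ L = K L A * μ M := by
      intro j hj
      obtain ⟨Lj, hLj⟩ : ∃ Lj : Subgroup G, (Lj : Set G) = tr (a j)⁻¹ (a j) (L : Set G) :=
        ⟨L.comap (MulAut.conj (a j)⁻¹).toMonoidHom, by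
          ext g
          simp [mem_tr]⟩
      have hLjc : CO (Lj : Set G) := by rw [hLj]; exact hL.tr _ _
      have hμ : μ Lj = μ L := by
        rw [hLj]
        have e : tr (a j)⁻¹ (a j) (L : Set G) =
            (fun g => (a j)⁻¹ * g) ⁻¹' ((fun g => g * a j) ⁻¹' (L : Set G)) := by
          ext g
          simp [mem_tr]
        rw [e, measure_preimage_mul, measure_preimage_mul_right]
      have h2 := h.index' hM hLjc (hA.tr (a j)⁻¹ (a j)) (fun l hl => hMA l hl j hj) (by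
        intro l hl g
        have hl' : l ∈ (Lj : Set G) := hl
        rw [hLj, mem_tr, SetLike.mem_coe] at hl'
        rw [mem_tr, mem_tr, ← hAL _ hl' ((a j)⁻¹ * g * a j)]
        have e : (a j)⁻¹ * (l * g) * a j = (a j)⁻¹ * l * a j * ((a j)⁻¹ * g * a j) := by group
        rw [e])
      rw [hμ] at h2
      rw [h2, hLj, h.inv L A hL hA]
    have h2 : K M (⋃ j ∈ Finset.range N, tr (a j)⁻¹ (a j) A) * μ L = N * (K L A * μ M) := by
      rw [(h.add M hM).sum (h.emp M hM) _ (fun j _ => hA.tr _ _)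
        (fun i _ j _ hij => ha hij), Finset.sum_mul, Finset.sum_congr rfl h1, Finset.sum_const,
        Finset.card_range, nsmul_eq_mul]
    have hM0 : μ M ≠ 0 := (hM.2.measure_pos μ ⟨1, M.one_mem⟩).ne'
    have hMt : μ M ≠ ⊤ := hM.1.measure_lt_top.ne
    have h3 := h.bd M (⋃ j ∈ Finset.range N, tr (a j)⁻¹ (a j) A) hM
      (CO.biUnion _ fun j _ => hA.tr _ _)
    have h4 : (N : ℝ≥0∞) * K L A * μ M ≤ c * μ L * μ M := by
      calc (N : ℝ≥0∞) * K L A * μ M = K M (⋃ j ∈ Finset.range N, tr (a j)⁻¹ (a j) A) * μ L := by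
            rw [h2, mul_assoc]
        _ ≤ c * μ M * μ L := by gcongr
        _ = c * μ L * μ M := by ring
    exact (ENNReal.mul_le_mul_iff_left hM0 hMt).mp h4
  by_contra hne
  have hfin : c * μ L ≠ ⊤ := ENNReal.mul_ne_top hc hLt
  obtain ⟨N, hN⟩ := ENNReal.exists_nat_mul_gt hne hfin
  exact absurd (key N) (not_le.mpr hN)

theorem loc (h : BI μ c K) (hc : c ≠ ⊤) (hR : Recur G) {x x' : G} (hx : x ≠ x') :
    ∃ L : Subgroup G, CO (L : Set G) ∧ K (tr x⁻¹ 1 (L : Set G)) (tr x'⁻¹ 1 (L : Set G)) = 0 := by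
  obtain ⟨z, hz⟩ : ∃ z, z = x⁻¹ * x' := ⟨_, rfl⟩
  have hz1 : z ≠ 1 := fun e => hx (by rw [hz, inv_mul_eq_one] at e; exact e)
  obtain ⟨E, hE, a, ha⟩ := hR z hz1
  have h1 : ∀ᶠ k in 𝓝 (1 : G), z * k ∈ E := by
    have := (continuous_const_mul z).tendsto (1 : G)
    rw [mul_one] at this
    exact this.eventually hE
  obtain ⟨L₀, hL₀, hLE⟩ := exists_sub h1
  have hA : CO (tr z⁻¹ 1 (L₀ : Set G)) := hL₀.tr _ _
  have hAE : tr z⁻¹ 1 (L₀ : Set G) ⊆ E := by
    intro g hg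
    rw [mem_tr, mul_one, SetLike.mem_coe] at hg
    have := hLE _ hg
    rwa [mul_inv_cancel_left] at this
  obtain ⟨L, hL, hLA⟩ := exists_sub ((stabL hA).and (hL₀.2.eventually_mem L₀.one_mem))
  refine ⟨L, hL, ?_⟩
  have h2 : K (tr x⁻¹ 1 (L : Set G)) (tr x'⁻¹ 1 (L : Set G)) = K L (tr z⁻¹ 1 (L : Set G)) := by
    rw [← h.inv _ _ (hL.tr _ _) (hL.tr _ _) x 1, tr_tr, tr_tr, inv_mul_cancel, mul_one, tr_one, hz,
      mul_inv_rev, inv_inv]
  rw [h2]
  have h3 := h.null hc hL hA (fun l hl => (hLA l hl).1) (a := a) (by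
    intro i j hij
    have e : ∀ i, tr (a i)⁻¹ (a i) (tr z⁻¹ 1 (L₀ : Set G)) ⊆ (fun y => a i * y * (a i)⁻¹) '' E := by
      intro i g hg
      rw [mem_tr] at hg
      exact ⟨_, hAE hg, by group⟩
    exact (ha hij).mono (e i) (e j))
  refine le_antisymm ?_ zero_le'
  rw [← h3]
  refine h.mono_right hL (hL.tr _ _) hA fun g hg => ?_
  rw [mem_tr, SetLike.mem_coe] at hg ⊢
  exact (hLA _ hg).2

theorem vanish (h : BI μ c K) (hc : c ≠ ⊤) (hR : Recur G) {C E : Set G} (hC : CO C) (hE : CO E)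
    (hd : Disjoint C E) : K C E = 0 := by
  have step1 : ∀ x ∈ C, ∃ L : Subgroup G, CO (L : Set G) ∧ ∃ B, CO B ∧ E ⊆ B ∧
      K (tr x⁻¹ 1 (L : Set G)) B = 0 := by
    intro x hx
    refine hE.1.induction_on (p := fun S => ∃ L : Subgroup G, CO (L : Set G) ∧ ∃ B, CO B ∧ S ⊆ B ∧
      K (tr x⁻¹ 1 (L : Set G)) B = 0) ?_ ?_ ?_ ?_
    · obtain ⟨L, hL, -⟩ := exists_sub (G := G) (p := fun _ => True) (Eventually.of_forall fun _ => trivial)
      exact ⟨L, hL, ∅, CO.empty, subset_rfl, h.emp _ (hL.tr _ _)⟩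
    · rintro S T hST ⟨L, hL, B, hB, hTB, h0⟩
      exact ⟨L, hL, B, hB, hST.trans hTB, h0⟩
    · rintro S T ⟨L, hL, B, hB, hSB, h0⟩ ⟨L', hL', B', hB', hTB', h0'⟩
      have hM : CO ((L ⊓ L' : Subgroup G) : Set G) := by
        rw [Subgroup.coe_inf]
        exact hL.inter hL'
      refine ⟨L ⊓ L', hM, B ∪ B', hB.union hB', Set.union_subset_union hSB hTB', ?_⟩
      refine le_antisymm ?_ zero_le'
      calc _ ≤ _ := h.sub_right (hM.tr _ _) hB hB'
        _ ≤ K (tr x⁻¹ 1 (L : Set G)) B + K (tr x⁻¹ 1 (L' : Set G)) B' :=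
            add_le_add (h.mono_left (hM.tr _ _) (hL.tr _ _) hB fun g hg => by
              rw [mem_tr, SetLike.mem_coe] at hg ⊢
              exact hg.1) (h.mono_left (hM.tr _ _) (hL'.tr _ _) hB' fun g hg => by
              rw [mem_tr, SetLike.mem_coe] at hg ⊢
              exact hg.2)
        _ = 0 := by rw [h0, h0', add_zero]
    · intro x' hx'
      obtain ⟨L, hL, h0⟩ := h.loc hc hR (x := x) (x' := x') (fun e =>
        Set.disjoint_left.mp hd hx (e ▸ hx'))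
      refine ⟨tr x'⁻¹ 1 (L : Set G), ?_, L, hL, _, hL.tr _ _, subset_rfl, h0⟩
      refine mem_nhdsWithin_of_mem_nhds ((hL.tr _ _).2.mem_nhds ?_)
      rw [mem_tr, inv_mul_cancel, mul_one]
      exact L.one_mem
  have step2 : ∃ A, CO A ∧ C ⊆ A ∧ ∃ B, CO B ∧ E ⊆ B ∧ K A B = 0 := by
    refine hC.1.induction_on (p := fun S => ∃ A, CO A ∧ S ⊆ A ∧ ∃ B, CO B ∧ E ⊆ B ∧ K A B = 0)
      ?_ ?_ ?_ ?_
    · exact ⟨∅, CO.empty, subset_rfl, E, hE, subset_rfl, by
        rw [h.symm _ _ CO.empty hE, h.emp _ hE]⟩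
    · rintro S T hST ⟨A, hA, hTA, r⟩
      exact ⟨A, hA, hST.trans hTA, r⟩
    · rintro S T ⟨A, hA, hSA, B, hB, hEB, h0⟩ ⟨A', hA', hTA', B', hB', hEB', h0'⟩
      refine ⟨A ∪ A', hA.union hA', Set.union_subset_union hSA hTA', B ∩ B', hB.inter hB',
        Set.subset_inter hEB hEB', ?_⟩
      refine le_antisymm ?_ zero_le'
      calc _ ≤ _ := h.sub_left hA hA' (hB.inter hB')
        _ ≤ K A B + K A' B' :=
            add_le_add (h.mono_right hA (hB.inter hB') hB Set.inter_subset_left)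
              (h.mono_right hA' (hB.inter hB') hB' Set.inter_subset_right)
        _ = 0 := by rw [h0, h0', add_zero]
    · intro x hx
      obtain ⟨L, hL, B, hB, hEB, h0⟩ := step1 x hx
      refine ⟨tr x⁻¹ 1 (L : Set G), ?_, _, hL.tr _ _, subset_rfl, B, hB, hEB, h0⟩
      refine mem_nhdsWithin_of_mem_nhds ((hL.tr _ _).2.mem_nhds ?_)
      rw [mem_tr, inv_mul_cancel, mul_one]
      exact L.one_mem
  obtain ⟨A, hA, hCA, B, hB, hEB, h0⟩ := step2
  refine le_antisymm ?_ zero_le'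
  calc K C E ≤ K A E := h.mono_left hC hA hE hCA
    _ ≤ K A B := h.mono_right hA hE hB hEB
    _ = 0 := h0

end BI

end Vale.Agent.P092.H911
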