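import Vale.Agent.P092.H911.Kap
import Vale.Agent.P092.H911.Van

/-!
P092 (helper911), block B-5: average over `E ⧸ Λ`, and the commutation theorem.
-/

set_option linter.all false

open scoped InnerProductSpace ENNReal
open MeasureTheory Filter Topology ContinuousLinearMap

namespace Vale.Agent.P092.H911

section av

variable {E : Type*} [Group E] [TopologicalSpace E] [IsTopologicalGroup E] (Λ : Subgroup E)
  [MeasurableSpace (E ⧸ Λ)] [BorelSpace (E ⧸ Λ)] (ν : Measure (E ⧸ Λ))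
  (hν : ∀ g : E, ν.map (fun x => g • x) = ν) {f : E → ℝ≥0∞}

/-- average of a right `Λ`-invariant function -/
noncomputable def av (f : E → ℝ≥0∞) : ℝ≥0∞ := ∫⁻ q : E ⧸ Λ, f q.out ∂ν

theorem f_out (hf : ∀ h, ∀ v ∈ Λ, f (h * v) = f h) (x : E) : f ((x : E ⧸ Λ)).out = f x := by
  have h1 : x⁻¹ * ((x : E ⧸ Λ)).out ∈ Λ := QuotientGroup.eq.mp (QuotientGroup.out_eq' _).symm
  have h2 := hf x _ h1
  rwa [mul_inv_cancel_left] at h2

theorem f_cont (hf : ∀ h, ∀ v ∈ Λ, f (h * v) = f h) (hc : Continuous f) :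
    Continuous fun q : E ⧸ Λ => f q.out := by
  refine (QuotientGroup.isQuotientMap_mk (N := Λ)).continuous_iff.mpr ?_
  have : (fun q : E ⧸ Λ => f q.out) ∘ (fun x : E => (x : E ⧸ Λ)) = f := funext fun x => f_out Λ hf x
  rw [show (fun q : E ⧸ Λ => f q.out) ∘ (QuotientGroup.mk : E → E ⧸ Λ) = f from this]
  exact hc

theorem smul_out (hf : ∀ h, ∀ v ∈ Λ, f (h * v) = f h) (a : E) (q : E ⧸ Λ) :
    f (a * q.out) = f (a • q).out := by
  rw [← f_out Λ hf (a * q.out)]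
  congr 2
  conv_rhs => rw [← QuotientGroup.out_eq' q]
  rfl

include hν in
theorem av_tr (hf : ∀ h, ∀ v ∈ Λ, f (h * v) = f h) (hc : Continuous f) (a : E) :
    av Λ ν (fun h => f (a * h)) = av Λ ν f := by
  have hm : Measurable fun q : E ⧸ Λ => f q.out := (f_cont Λ hf hc).measurable
  have ha : Measurable fun q : E ⧸ Λ => a • q := (continuous_const_smul a).measurable
  rw [av, av]
  conv_rhs => rw [← hν a, lintegral_map hm ha]
  exact lintegral_congr fun q => smul_out Λ hf a q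

include hν in
theorem av_zero [SecondCountableTopology E] (hf : ∀ h, ∀ v ∈ Λ, f (h * v) = f h)
    (hc : Continuous f) (hu : ∀ᶠ u in 𝓝 (1 : E), ∀ h, f (u * h) = f h) (hν0 : ν ≠ 0)
    (h0 : av Λ ν f = 0) : f 1 = 0 := by
  by_contra hne
  have hm : Measurable fun q : E ⧸ Λ => f q.out := (f_cont Λ hf hc).measurable
  obtain ⟨N, hN⟩ : ∃ N : Set (E ⧸ Λ), N = {q | f q.out ≠ 0} := ⟨_, rfl⟩
  have hNm : MeasurableSet N := by
    rw [hN]
    exact (hm (measurableSet_singleton 0)).compl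
  have hN0 : ν N = 0 := by
    rw [av, lintegral_eq_zero_iff hm] at h0
    rw [hN]
    exact h0
  obtain ⟨s, hs, hcov⟩ := TopologicalSpace.countable_cover_nhds (f := fun g : E =>
    {x | g⁻¹ * x ∈ {u : E | ∀ h, f (u * h) = f h}}) (fun g => by
      have h1 : Tendsto (fun x => g⁻¹ * x) (𝓝 g) (𝓝 1) := by
        have := (continuous_const_mul g⁻¹).tendsto g
        rwa [inv_mul_cancel] at this
      exact h1.eventually hu)
  apply hν0
  rw [← Measure.measure_univ_eq_zero]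
  have hsub : (Set.univ : Set (E ⧸ Λ)) ⊆ ⋃ g ∈ s, (fun q : E ⧸ Λ => g⁻¹ • q) ⁻¹' N := by
    intro q _
    have hx : q.out ∈ ⋃ g ∈ s, {x | g⁻¹ * x ∈ {u : E | ∀ h, f (u * h) = f h}} := by
      rw [hcov]; trivial
    simp only [Set.mem_iUnion, Set.mem_setOf_eq] at hx
    obtain ⟨g, hg, hgx⟩ := hx
    refine Set.mem_biUnion hg ?_
    rw [Set.mem_preimage, hN, Set.mem_setOf_eq, ← smul_out Λ hf]
    have := hgx 1
    rw [mul_one] at this
    rw [this]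
    exact hne
  refine measure_mono_null hsub ((measure_biUnion_null_iff hs).mpr fun g _ => ?_)
  have ha : Measurable fun q : E ⧸ Λ => g⁻¹ • q := (continuous_const_smul g⁻¹).measurable
  rw [← Measure.map_apply ha hNm, hν, hN0]

theorem av_add {g : E → ℝ≥0∞} (hf : ∀ h, ∀ v ∈ Λ, f (h * v) = f h) (hc : Continuous f) :
    av Λ ν (fun h => f h + g h) = av Λ ν f + av Λ ν g :=
  lintegral_add_left (f_cont Λ hf hc).measurable _

theorem av_le {c : ℝ≥0∞} (h : ∀ x, f x ≤ c) : av Λ ν f ≤ c * ν Set.univ := by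
  rw [av, ← lintegral_const]
  exact lintegral_mono fun q => h _

end av

section main

variable {ι G₁ G₂ HH X Γ : Type*} [Fintype ι] [Group G₁] [Group G₂] [TopologicalSpace G₁]
    [TopologicalSpace G₂] [Group X] [Countable X] [Group Γ] [NormedAddCommGroup HH]
    [InnerProductSpace ℂ HH]
    [CompleteSpace HH] {R : X →* (HH →L[ℂ] HH)} {V : Γ →* (HH →L[ℂ] HH)} {ξ₀ : ι → HH}
    {i : Γ →* G₁ × G₂} {π : X →* G₁ × G₂} {P₁ : Set G₁ → (HH →L[ℂ] HH)}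
    {P₂ : Set G₂ → (HH →L[ℂ] HH)}
  [IsTopologicalGroup G₁] [IsTopologicalGroup G₂]
  [SecondCountableTopology G₁] [SecondCountableTopology G₂] [T2Space G₁] [T2Space G₂]
  [NonarchimedeanGroup G₁] [NonarchimedeanGroup G₂] [LocallyCompactSpace G₁]
  [LocallyCompactSpace G₂]
  [MeasurableSpace G₁] [BorelSpace G₁] [MeasurableSpace G₂] [BorelSpace G₂]
  (μ₁ : Measure G₁) [μ₁.IsHaarMeasure] [μ₁.IsMulRightInvariant]
  (μ₂ : Measure G₂) [μ₂.IsHaarMeasure] [(μ₁.prod μ₂).IsMulRightInvariant]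
  (Λ : Subgroup (G₁ × G₂)) (hΛ : Λ ≤ i.range)
  [MeasurableSpace ((G₁ × G₂) ⧸ Λ)] [BorelSpace ((G₁ × G₂) ⧸ Λ)]
  (ν : Measure ((G₁ × G₂) ⧸ Λ)) [IsFiniteMeasure ν]
  (hν : ∀ g : G₁ × G₂, ν.map (fun x => g • x) = ν)

/-- the averaged function -/
noncomputable def Kb (P₁ : Set G₁ → (HH →L[ℂ] HH)) (P₂ : Set G₂ → (HH →L[ℂ] HH)) (ξ₀ : ι → HH)
    (D : Set G₂) (C E : Set G₁) : ℝ≥0∞ :=
  av Λ ν (kap (μ₁.prod μ₂) P₁ P₂ ξ₀ C E D)

include hΛ hν in
theorem Dat.bi (d : Dat R V ξ₀ i π P₁ P₂) {D : Set G₂} (hD : CO D) :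
    BI μ₁ (Fintype.card ι * μ₂ D * ν Set.univ) (Kb μ₁ μ₂ Λ ν P₁ P₂ ξ₀ D) := by
  have hinv : ∀ {C E : Set G₁}, CO C → CO E → ∀ h, ∀ v ∈ Λ,
      kap (μ₁.prod μ₂) P₁ P₂ ξ₀ C E D (h * v) = kap (μ₁.prod μ₂) P₁ P₂ ξ₀ C E D h := by
    intro C E hC hE h v hv
    obtain ⟨g, rfl⟩ := hΛ hv
    exact d.kap_gam _ hC hE hD h g
  have hcont : ∀ {C E : Set G₁}, CO C → CO E →
      Continuous (kap (μ₁.prod μ₂) P₁ P₂ ξ₀ C E D) := fun hC hE => kap_cont _ hC hE hD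
  refine ⟨?_, ?_, ?_, ?_, ?_⟩
  · intro A B hA hB
    rw [Kb, Kb]
    congr 1
    funext h
    exact d.kap_symm _ hA hB hD h
  · intro A hA B B' hB hB' hd
    rw [Kb, Kb, Kb, ← av_add _ _ (hinv hA hB) (hcont hA hB)]
    congr 1
    funext h
    exact d.kap_add _ hA hB hB' hd hD h
  · intro A hA
    have h1 := d.kap_add (μ₁.prod μ₂) hA CO.empty CO.empty (Set.disjoint_empty _) hD
    have h2 : ∀ h, kap (μ₁.prod μ₂) P₁ P₂ ξ₀ A ∅ D h = 0 := fun h => by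
      rw [kap]
      refine Finset.sum_eq_zero fun k _ => ?_
      rw [lintegral_eq_zero_iff (meas_Y hA CO.empty hD h _)]
      refine Eventually.of_forall fun ω => ?_
      have e : tr h.1 ω.1 (∅ : Set G₁) = ∅ := rfl
      simp only [Yop, e, d.fam₁.emp, zero_mul]
      simp
    rw [Kb, show (kap (μ₁.prod μ₂) P₁ P₂ ξ₀ A ∅ D) = fun _ => 0 from funext h2, av]
    simp
  · intro A B hA hB a b
    have h1 : ∀ h, kap (μ₁.prod μ₂) P₁ P₂ ξ₀ (tr a b A) (tr a b B) D h =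
        kap (μ₁.prod μ₂) P₁ P₂ ξ₀ A B D ((a, 1) * h) := fun h => by
      have := kap_tr (μ₁.prod μ₂) (P₁ := P₁) (P₂ := P₂) (ξ₀ := ξ₀) (C := A) (E := B) (D := D)
        (a, 1) (b, 1) h
      simpa only [tr_one] using this
    rw [Kb, Kb, ← av_tr Λ ν hν (hinv hA hB) (hcont hA hB) (a, 1)]
    congr 1
    funext h
    exact h1 h
  · intro A B hA hB
    calc Kb μ₁ μ₂ Λ ν P₁ P₂ ξ₀ D A B ≤ (Fintype.card ι * (μ₁ A * μ₂ D)) * ν Set.univ :=
          av_le _ _ fun h => d.kap_le μ₁ μ₂ hA hB hD h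
      _ = _ := by ring

include μ₁ μ₂ hΛ hν in
/-- **Block B-5/B-6.** -/
theorem Dat.commute (d : Dat R V ξ₀ i π P₁ P₂) (hR : Recur G₁) (hν0 : ν ≠ 0) {C : Set G₁}
    {D : Set G₂} (hC : CO C) (hD : CO D) : P₁ C * P₂ D = P₂ D * P₁ C := by
  refine d.fam₁.commute_of (d.fam₂.adj D hD) (fun A B hA hB hd => ?_) hC
  have hbi := d.bi μ₁ μ₂ Λ hΛ ν hν hD
  have hc : (Fintype.card ι * μ₂ D * ν Set.univ : ℝ≥0∞) ≠ ⊤ :=
    ENNReal.mul_ne_top (ENNReal.mul_ne_top (ENNReal.natCast_ne_top _) hD.1.measure_lt_top.ne)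
      (measure_ne_top _ _)
  have h0 := hbi.vanish hc hR hB hA hd.symm
  have h1 : kap (μ₁.prod μ₂) P₁ P₂ ξ₀ B A D 1 = 0 := by
    refine av_zero Λ ν hν (f := kap (μ₁.prod μ₂) P₁ P₂ ξ₀ B A D) ?_ (kap_cont _ hB hA hD)
      (kap_left_ev _ hB hA hD) hν0 h0
    intro h v hv
    obtain ⟨g, rfl⟩ := hΛ hv
    exact d.kap_gam _ hB hA hD h g
  have h2 := d.kap_zero _ hB hA hD h1
  rw [mul_assoc]
  exact h2

end main

end Vale.Agent.P092.H911
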