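import Vale.Agent.P092.H911.CO

/-!
P092 (helper911), block B-5: the integral of a finitely additive function over translates.
-/

set_option linter.all false

open scoped InnerProductSpace ENNReal
open MeasureTheory Filter Topology ContinuousLinearMap

namespace Vale.Agent.P092.H911

variable {G : Type*} [Group G] [TopologicalSpace G] [IsTopologicalGroup G]
  [SecondCountableTopology G] [T2Space G] [MeasurableSpace G] [BorelSpace G]
  (μ : Measure G) [μ.IsMulLeftInvariant]

theorem measurableSet_tr {K : Subgroup G} (hK : IsOpen (K : Set G)) (a b : G) :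
    MeasurableSet (tr a b (K : Set G)) := by
  have e : tr a b (K : Set G) = (fun c => a * c * b) ⁻¹' (K : Set G) := rfl
  rw [e]
  exact (hK.preimage (by fun_prop)).measurableSet

theorem meas_tr_left (u : G) (A : Set G) : μ (tr u⁻¹ 1 A) = μ A := by
  have e : tr u⁻¹ 1 A = (fun c => u⁻¹ * c) ⁻¹' A := by
    ext c
    simp [mem_tr]
  rw [e, measure_preimage_mul]

theorem countable_quot {K : Subgroup G} (hK : IsOpen (K : Set G)) : Countable (G ⧸ K) := by
  haveI : DiscreteTopology (G ⧸ K) := QuotientGroup.discreteTopology hK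
  haveI : SecondCountableTopology (G ⧸ K) := inferInstance
  exact TopologicalSpace.separableSpace_iff_countable.mp inferInstance

theorem lintegral_coset {K : Subgroup G} (hK : IsOpen (K : Set G)) {F : G → ℝ≥0∞}
    (hF : ∀ g, ∀ k ∈ K, F (g * k) = F g) :
    ∫⁻ g, F g ∂μ = ∑' q : G ⧸ K, F q.out * μ K := by
  haveI := countable_quot hK
  have hU : (⋃ q : G ⧸ K, tr (q.out)⁻¹ 1 (K : Set G)) = Set.univ := by
    refine Set.eq_univ_of_forall fun g => Set.mem_iUnion.mpr ⟨(g : G ⧸ K), ?_⟩
    rw [mem_tr, mul_one]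
    exact QuotientGroup.eq.mp (QuotientGroup.out_eq' _)
  have hd : Pairwise (Function.onFun Disjoint fun q : G ⧸ K => tr (q.out)⁻¹ 1 (K : Set G)) := by
    intro q q' hqq
    have h := coset_disj K (a := 1) (b := 1) (u := q.out) (v := q'.out) (fun h => hqq (by
      have := QuotientGroup.eq.mpr h
      rwa [QuotientGroup.out_eq', QuotientGroup.out_eq'] at this))
    simpa [mul_one] using h
  rw [← setLIntegral_univ, ← hU, lintegral_iUnion (fun q => measurableSet_tr hK _ _) hd]
  refine tsum_congr fun q => ?_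
  rw [← meas_tr_left μ q.out (K : Set G), ← setLIntegral_const]
  refine setLIntegral_congr_fun (measurableSet_tr hK _ _) fun g hg => ?_
  rw [mem_tr, mul_one] at hg
  have := hF q.out _ hg
  rwa [mul_inv_cancel_left] at this

/-- measure of a compact open set in terms of cosets -/
theorem meas_dec {K : Subgroup G} (hK : IsOpen (K : Set G)) {A : Set G} {s : Finset G}
    (hs : ∀ u ∈ s, ∀ v ∈ s, u ≠ v → u⁻¹ * v ∉ K) (hA : A = ⋃ u ∈ s, tr u⁻¹ 1 (K : Set G)) :
    μ A = s.card * μ K := by
  rw [hA, measure_biUnion_finset]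
  · rw [Finset.sum_congr rfl fun u _ => meas_tr_left μ u (K : Set G), Finset.sum_const,
      nsmul_eq_mul]
  · intro u hu v hv huv
    have h := coset_disj K (a := 1) (b := 1) (hs u hu v hv huv)
    simpa [mul_one] using h
  · exact fun u _ => measurableSet_tr hK _ _

theorem lintegral_bd [NonarchimedeanGroup G] [LocallyCompactSpace G] {m : Set G → ℝ≥0∞}
    (hm : FA m) (h0 : m ∅ = 0) {M : ℝ≥0∞} (hM : ∀ A, CO A → m A ≤ M) {D : Set G} (hD : CO D)
    (h : G) : ∫⁻ y, m (tr h y D) ∂μ ≤ M * μ D := by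
  classical
  obtain ⟨K, hK, hKD⟩ := exists_sub (stabR hD)
  have hKD' : ∀ g, ∀ k ∈ K, g * k ∈ D ↔ g ∈ D := fun g k hk => hKD k hk g
  obtain ⟨J, hJD, hJd, hJ⟩ := coset_dec hD K hK.2 hKD'
  rw [lintegral_coset μ hK.2 (F := fun y => m (tr h y D))]
  · rw [ENNReal.tsum_mul_right, meas_dec μ hK.2 hJd hJ, ← mul_assoc]
    gcongr
    rw [ENNReal.tsum_eq_iSup_sum]
    refine iSup_le fun s => ?_
    have h1 : ∀ q ∈ s, m (tr h q.out D) = ∑ u ∈ J, m (tr (u⁻¹ * h) q.out (K : Set G)) := by
      intro q _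
      have e : tr h q.out D = ⋃ u ∈ J, tr (u⁻¹ * h) q.out (K : Set G) := by
        conv_lhs => rw [hJ]
        ext c
        simp only [mem_tr, Set.mem_iUnion, mul_one, mul_assoc]
      rw [e, hm.sum h0 J (fun u _ => hK.tr _ _) (fun u hu v hv huv => coset_disj K (hJd u hu v hv huv))]
    rw [Finset.sum_congr rfl h1, Finset.sum_comm]
    have h2 : ∀ u ∈ J, ∑ q ∈ s, m (tr (u⁻¹ * h) q.out (K : Set G)) ≤ M := by
      intro u _
      have hdj : ∀ q ∈ s, ∀ q' ∈ s, q ≠ q' → Disjoint (tr (u⁻¹ * h) q.out (K : Set G))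
          (tr (u⁻¹ * h) q'.out (K : Set G)) := by
        intro q _ q' _ hqq
        rw [Set.disjoint_left]
        intro c hc hc'
        rw [mem_tr, SetLike.mem_coe] at hc hc'
        apply hqq
        have h3 := K.mul_mem (K.inv_mem hc) hc'
        have e : (u⁻¹ * h * c * q.out)⁻¹ * (u⁻¹ * h * c * q'.out) = (q.out)⁻¹ * q'.out := by group
        rw [e] at h3
        have := QuotientGroup.eq.mpr h3
        rwa [QuotientGroup.out_eq', QuotientGroup.out_eq'] at this
      rw [← hm.sum h0 s (fun q _ => hK.tr _ _) hdj]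
      exact hM _ (CO.biUnion s fun q _ => hK.tr _ _)
    calc ∑ u ∈ J, ∑ q ∈ s, m (tr (u⁻¹ * h) q.out (K : Set G)) ≤ ∑ u ∈ J, M :=
          Finset.sum_le_sum h2
      _ = M * J.card := by rw [Finset.sum_const, nsmul_eq_mul, mul_comm]
  · intro g k hk
    congr 1
    ext c
    rw [mem_tr, mem_tr, ← mul_assoc, hKD' _ k hk]

end Vale.Agent.P092.H911
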