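import Mathlib

/-!
P092 (helper911), block B-5: compact open sets of a topological group, finitely additive functions
on them, families of projections indexed by them.
-/

set_option linter.all false

open scoped InnerProductSpace ENNReal
open MeasureTheory Filter Topology ContinuousLinearMap

namespace Vale.Agent.P092.H911

/-- compact open sets -/
def CO {G : Type*} [TopologicalSpace G] (A : Set G) : Prop := IsCompact A ∧ IsOpen A

section co

variable {G : Type*} [TopologicalSpace G]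

theorem CO.empty : CO (∅ : Set G) := ⟨isCompact_empty, isOpen_empty⟩

theorem CO.union {A B : Set G} (hA : CO A) (hB : CO B) : CO (A ∪ B) :=
  ⟨hA.1.union hB.1, hA.2.union hB.2⟩

theorem CO.inter [T2Space G] {A B : Set G} (hA : CO A) (hB : CO B) : CO (A ∩ B) :=
  ⟨hA.1.inter_right hB.1.isClosed, hA.2.inter hB.2⟩

theorem CO.diff [T2Space G] {A B : Set G} (hA : CO A) (hB : CO B) : CO (A \ B) :=
  ⟨hA.1.diff hB.2, hA.2.sdiff hB.1.isClosed⟩

theorem CO.biUnion {ι : Type*} (s : Finset ι) {B : ι → Set G} (h : ∀ i ∈ s, CO (B i)) :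
    CO (⋃ i ∈ s, B i) :=
  ⟨s.isCompact_biUnion fun i hi => (h i hi).1, isOpen_biUnion fun i hi => (h i hi).2⟩

end co

section grp

variable {G : Type*} [Group G]

/-- `a⁻¹ A b⁻¹` -/
def tr (a b : G) (A : Set G) : Set G := {c | a * c * b ∈ A}

theorem mem_tr {a b c : G} {A : Set G} : c ∈ tr a b A ↔ a * c * b ∈ A := Iff.rfl

theorem tr_tr (a b a' b' : G) (A : Set G) : tr a b (tr a' b' A) = tr (a' * a) (b * b') A := by
  ext c
  simp only [mem_tr, mul_assoc]

theorem tr_one (A : Set G) : tr 1 1 A = A := by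
  ext c
  simp only [mem_tr, one_mul, mul_one]

theorem tr_union (a b : G) (A B : Set G) : tr a b (A ∪ B) = tr a b A ∪ tr a b B := rfl

theorem tr_disj (a b : G) {A B : Set G} (h : Disjoint A B) : Disjoint (tr a b A) (tr a b B) :=
  Set.disjoint_left.mpr fun c hc hc' => Set.disjoint_left.mp h hc hc'

variable [TopologicalSpace G] [IsTopologicalGroup G]

theorem CO.tr {A : Set G} (hA : CO A) (a b : G) : CO (tr a b A) := by
  have e : H911.tr a b A = ((Homeomorph.mulLeft a).trans (Homeomorph.mulRight b)) ⁻¹' A := rfl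
  rw [e]
  exact ⟨(Homeomorph.isCompact_preimage _).mpr hA.1, hA.2.preimage (Homeomorph.continuous _)⟩

/-- Right translations by small elements preserve a compact open set. -/
theorem stabR {A : Set G} (hA : CO A) : ∀ᶠ k in 𝓝 (1 : G), ∀ g, g * k ∈ A ↔ g ∈ A := by
  obtain ⟨V, hV, hVA⟩ := compact_open_separated_mul_right hA.1 hA.2 subset_rfl
  have h1 : ∀ᶠ k in 𝓝 (1 : G), k⁻¹ ∈ V := by
    have := (continuous_inv (G := G)).tendsto 1
    rw [inv_one] at this
    exact this.eventually hV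
  filter_upwards [hV, h1] with k hk hk' g
  refine ⟨fun h => ?_, fun h => hVA (Set.mul_mem_mul h hk)⟩
  have := hVA (Set.mul_mem_mul h hk')
  rwa [mul_inv_cancel_right] at this

/-- Left translations by small elements preserve a compact open set. -/
theorem stabL {A : Set G} (hA : CO A) : ∀ᶠ k in 𝓝 (1 : G), ∀ g, k * g ∈ A ↔ g ∈ A := by
  obtain ⟨V, hV, hVA⟩ := compact_open_separated_mul_left hA.1 hA.2 subset_rfl
  have h1 : ∀ᶠ k in 𝓝 (1 : G), k⁻¹ ∈ V := by
    have := (continuous_inv (G := G)).tendsto 1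
    rw [inv_one] at this
    exact this.eventually hV
  filter_upwards [hV, h1] with k hk hk' g
  refine ⟨fun h => ?_, fun h => hVA (Set.mul_mem_mul hk h)⟩
  have := hVA (Set.mul_mem_mul hk' h)
  rwa [inv_mul_cancel_left] at this

theorem tr_right_ev {A : Set G} (hA : CO A) (h x : G) : ∀ᶠ x' in 𝓝 x, tr h x' A = tr h x A := by
  have h1 : Tendsto (fun x' => x⁻¹ * x') (𝓝 x) (𝓝 1) := by
    have := (continuous_const_mul x⁻¹).tendsto x
    rwa [inv_mul_cancel] at this
  filter_upwards [h1.eventually (stabR hA)] with x' hx'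
  ext c
  have := hx' (h * c * x)
  rw [mem_tr, mem_tr, ← this]
  rw [mul_assoc _ x, mul_inv_cancel_left]

theorem tr_left_ev {A : Set G} (hA : CO A) : ∀ᶠ u in 𝓝 (1 : G), ∀ h x, tr (u * h) x A = tr h x A := by
  filter_upwards [stabL hA] with u hu h x
  ext c
  rw [mem_tr, mem_tr, ← hu (h * c * x)]
  simp only [mul_assoc]

/-- small compact open subgroups -/
theorem exists_sub [NonarchimedeanGroup G] [LocallyCompactSpace G] {p : G → Prop}
    (hp : ∀ᶠ k in 𝓝 (1 : G), p k) :
    ∃ K : Subgroup G, CO (K : Set G) ∧ ∀ k ∈ K, p k := by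
  obtain ⟨C, hC, hC1⟩ := exists_compact_mem_nhds (1 : G)
  obtain ⟨V, hV⟩ := NonarchimedeanGroup.is_nonarchimedean _ (inter_mem hC1 hp)
  refine ⟨V.toSubgroup, ⟨hC.of_isClosed_subset V.isClosed fun k hk => (hV hk).1, V.isOpen⟩,
    fun k hk => (hV hk).2⟩

end grp

section fa

variable {G : Type*} [TopologicalSpace G]

/-- finitely additive functions on compact open sets -/
def FA (m : Set G → ℝ≥0∞) : Prop :=
  ∀ A B, CO A → CO B → Disjoint A B → m (A ∪ B) = m A + m B

theorem FA.mono [T2Space G] {m : Set G → ℝ≥0∞} (h : FA m) {A B : Set G} (hA : CO A) (hB : CO B)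
    (hAB : A ⊆ B) : m A ≤ m B := by
  have h1 := h A (B \ A) hA (hB.diff hA) Set.disjoint_sdiff_right
  rw [Set.union_diff_cancel hAB] at h1
  rw [h1]
  exact le_self_add

theorem FA.sum {m : Set G → ℝ≥0∞} (h : FA m) (h0 : m ∅ = 0) {ι : Type*} (s : Finset ι)
    {B : ι → Set G} (hB : ∀ i ∈ s, CO (B i)) (hd : ∀ i ∈ s, ∀ j ∈ s, i ≠ j → Disjoint (B i) (B j)) :
    m (⋃ i ∈ s, B i) = ∑ i ∈ s, m (B i) := by
  classical
  induction s using Finset.induction_on with
  | empty => simp [h0]
  | insert i s hi ih =>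
    rw [Finset.set_biUnion_insert, Finset.sum_insert hi, h _ _ (hB i (Finset.mem_insert_self i s))
      (CO.biUnion s fun j hj => hB j (Finset.mem_insert_of_mem hj)), ih
      (fun j hj => hB j (Finset.mem_insert_of_mem hj))
      (fun j hj k hk => hd j (Finset.mem_insert_of_mem hj) k (Finset.mem_insert_of_mem hk))]
    rw [Set.disjoint_iUnion₂_right]
    intro j hj
    exact hd i (Finset.mem_insert_self i s) j (Finset.mem_insert_of_mem hj)
      (fun e => hi (e ▸ hj))

end fa

section coset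

variable {G : Type*} [Group G] [TopologicalSpace G] [IsTopologicalGroup G]

theorem coset_disj (K : Subgroup G) {a b u v : G} (h : u⁻¹ * v ∉ K) :
    Disjoint (tr (u⁻¹ * a) b (K : Set G)) (tr (v⁻¹ * a) b (K : Set G)) := by
  rw [Set.disjoint_left]
  intro c hc hc'
  rw [mem_tr, SetLike.mem_coe] at hc hc'
  apply h
  have := K.mul_mem hc (K.inv_mem hc')
  have e : u⁻¹ * a * c * b * (v⁻¹ * a * c * b)⁻¹ = u⁻¹ * v := by group
  rwa [e] at this

/-- decomposition of a compact open set into cosets -/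
theorem coset_dec {A : Set G} (hA : CO A) (K : Subgroup G) (hK : IsOpen (K : Set G))
    (hAK : ∀ g, ∀ k ∈ K, g * k ∈ A ↔ g ∈ A) :
    ∃ s : Finset G, (∀ u ∈ s, u ∈ A) ∧ (∀ u ∈ s, ∀ v ∈ s, u ≠ v → u⁻¹ * v ∉ K) ∧
      A = ⋃ u ∈ s, tr u⁻¹ 1 (K : Set G) := by
  classical
  obtain ⟨t, htA, ht⟩ := hA.1.elim_nhds_subcover (fun u => tr u⁻¹ 1 (K : Set G)) (fun u hu => by
    refine IsOpen.mem_nhds ?_ ?_
    · have e : tr u⁻¹ 1 (K : Set G) = (fun c => u⁻¹ * c) ⁻¹' (K : Set G) := by
        ext c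
        simp [mem_tr]
      rw [e]
      exact hK.preimage (continuous_const_mul _)
    · rw [mem_tr, inv_mul_cancel, one_mul]
      exact K.one_mem)
  have hmem : ∀ u v : G, u⁻¹ * v ∈ K → (u ∈ A ↔ v ∈ A) := fun u v h => by
    rw [← hAK u _ h, mul_inv_cancel_left]
  have hout : ∀ u : G, u⁻¹ * ((u : G ⧸ K)).out ∈ K := fun u =>
    QuotientGroup.eq.mp (QuotientGroup.out_eq' _).symm
  refine ⟨(t.image (fun u : G => (u : G ⧸ K))).image Quotient.out, ?_, ?_, ?_⟩
  · intro u hu
    obtain ⟨q, hq, rfl⟩ := Finset.mem_image.mp hu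
    obtain ⟨w, hw, rfl⟩ := Finset.mem_image.mp hq
    exact (hmem _ _ (hout w)).mp (htA w hw)
  · intro u hu v hv huv h
    obtain ⟨q, hq, rfl⟩ := Finset.mem_image.mp hu
    obtain ⟨q', hq', rfl⟩ := Finset.mem_image.mp hv
    apply huv
    have := QuotientGroup.eq.mpr h
    rw [QuotientGroup.out_eq', QuotientGroup.out_eq'] at this
    rw [this]
  · ext g
    simp only [Set.mem_iUnion, mem_tr, mul_one, SetLike.mem_coe]
    constructor
    · intro hg
      have := ht hg
      simp only [Set.mem_iUnion, mem_tr, mul_one, SetLike.mem_coe] at this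
      obtain ⟨w, hw, hgw⟩ := this
      refine ⟨(w : G ⧸ K).out, Finset.mem_image_of_mem _ (Finset.mem_image_of_mem _ hw), ?_⟩
      have := K.mul_mem (K.inv_mem (hout w)) hgw
      have e : (w⁻¹ * (w : G ⧸ K).out)⁻¹ * (w⁻¹ * g) = ((w : G ⧸ K).out)⁻¹ * g := by group
      rwa [e] at this
    · rintro ⟨u, hu, hg⟩
      obtain ⟨q, hq, rfl⟩ := Finset.mem_image.mp hu
      obtain ⟨w, hw, rfl⟩ := Finset.mem_image.mp hq
      exact (hmem _ _ hg).mp ((hmem _ _ (hout w)).mp (htA w hw))

end coset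

end Vale.Agent.P092.H911
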