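import Vale.Agent.P092.H911.Bd

/-!
P092 (helper911), block B-5: families of projections indexed by compact open sets.
-/

set_option linter.all false

open scoped InnerProductSpace ENNReal
open MeasureTheory Filter Topology ContinuousLinearMap

namespace Vale.Agent.P092.H911

/-- A family of projections indexed by the compact open sets, finitely additive, multiplicative,
nondegenerate. -/
structure Fam {G HH : Type*} [TopologicalSpace G] [NormedAddCommGroup HH]
    [InnerProductSpace ℂ HH] [CompleteSpace HH] (P : Set G → (HH →L[ℂ] HH)) : Prop where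
  adj : ∀ A, CO A → adjoint (P A) = P A
  mul : ∀ A B, CO A → CO B → P A * P B = P (A ∩ B)
  add : ∀ A B, CO A → CO B → Disjoint A B → P (A ∪ B) = P A + P B
  nondeg : ∀ ξ, (∀ A, CO A → P A ξ = 0) → ξ = 0

variable {G HH : Type*} [NormedAddCommGroup HH]
    [InnerProductSpace ℂ HH] [CompleteSpace HH] {P : Set G → (HH →L[ℂ] HH)}

namespace Fam

section top
variable [TopologicalSpace G]

theorem emp (h : Fam P) : P ∅ = 0 := by
  have := h.add ∅ ∅ CO.empty CO.empty (Set.disjoint_empty _)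
  rw [Set.union_empty] at this
  simpa using this

theorem mul_apply (h : Fam P) {A B : Set G} (hA : CO A) (hB : CO B) (ξ : HH) :
    P A (P B ξ) = P (A ∩ B) ξ := congrArg (fun T : HH →L[ℂ] HH => T ξ) (h.mul A B hA hB)

theorem idem (h : Fam P) {A : Set G} (hA : CO A) (ξ : HH) : P A (P A ξ) = P A ξ := by
  rw [h.mul_apply hA hA, Set.inter_self]

theorem inner_left (h : Fam P) {A : Set G} (hA : CO A) (ξ η : HH) :
    ⟪P A ξ, η⟫_ℂ = ⟪ξ, P A η⟫_ℂ := by
  rw [← adjoint_inner_right, h.adj A hA]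

theorem norm_sq (h : Fam P) {A : Set G} (hA : CO A) (ξ : HH) :
    ‖P A ξ‖ ^ 2 = (⟪ξ, P A ξ⟫_ℂ).re := by
  rw [← h.idem hA, ← h.inner_left hA, inner_self_eq_norm_sq_to_K, h.idem hA]
  norm_cast

theorem norm_le (h : Fam P) {A : Set G} (hA : CO A) (ξ : HH) : ‖P A ξ‖ ≤ ‖ξ‖ := by
  have h1 := h.norm_sq hA ξ
  have h2 : (⟪ξ, P A ξ⟫_ℂ).re ≤ ‖ξ‖ * ‖P A ξ‖ := (Complex.re_le_norm _).trans (norm_inner_le_norm _ _)
  by_contra hc
  push Not at hc
  have : 0 < ‖P A ξ‖ := lt_of_le_of_lt (norm_nonneg _) hc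
  nlinarith

theorem disj (h : Fam P) {A B : Set G} (hA : CO A) (hB : CO B) (hd : Disjoint A B) (ξ : HH) :
    P A (P B ξ) = 0 := by
  rw [h.mul_apply hA hB, hd.inter_eq, h.emp]
  rfl

/-- the function `A ↦ ‖P A ξ‖²` -/
theorem fa (h : Fam P) (ξ : HH) : FA fun A => ‖P A ξ‖ₑ ^ 2 := by
  intro A B hA hB hd
  have h1 : ‖P (A ∪ B) ξ‖ ^ 2 = ‖P A ξ‖ ^ 2 + ‖P B ξ‖ ^ 2 := by
    rw [h.norm_sq (hA.union hB), h.norm_sq hA, h.norm_sq hB, h.add A B hA hB hd,
      ContinuousLinearMap.add_apply, inner_add_right, Complex.add_re]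
  have h2 : ∀ v : HH, ‖v‖ₑ ^ 2 = ENNReal.ofReal (‖v‖ ^ 2) := fun v => by
    rw [← ofReal_norm_eq_enorm, ENNReal.ofReal_pow (norm_nonneg _)]
  simp only [h2, h1]
  rw [ENNReal.ofReal_add (by positivity) (by positivity)]

theorem fa_emp (h : Fam P) (ξ : HH) : ‖P ∅ ξ‖ₑ ^ 2 = 0 := by
  rw [h.emp]
  simp

theorem fa_le (h : Fam P) (ξ : HH) {A : Set G} (hA : CO A) : ‖P A ξ‖ₑ ^ 2 ≤ ‖ξ‖ₑ ^ 2 := by
  gcongr
  rw [← ofReal_norm_eq_enorm, ← ofReal_norm_eq_enorm]
  exact ENNReal.ofReal_le_ofReal (h.norm_le hA ξ)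

theorem sub [T2Space G] (h : Fam P) {A B : Set G} (hA : CO A) (hB : CO B) (hAB : A ⊆ B) (ξ : HH) :
    P B (P A ξ) = P A ξ := by
  rw [h.mul_apply hB hA, Set.inter_eq_self_of_subset_right hAB]

theorem sub' [T2Space G] (h : Fam P) {A B : Set G} (hA : CO A) (hB : CO B) (hAB : A ⊆ B) (ξ : HH) :
    P A (P B ξ) = P A ξ := by
  rw [h.mul_apply hA hB, Set.inter_eq_self_of_subset_left hAB]

/-- disjoint sets are not connected by `T` : then `T` commutes -/
theorem commute_of [T2Space G] (h : Fam P) {T : HH →L[ℂ] HH} (hT : adjoint T = T)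
    (h0 : ∀ A B, CO A → CO B → Disjoint A B → P A * T * P B = 0) {A : Set G} (hA : CO A) :
    P A * T = T * P A := by
  have h1 : P A * T * P A = T * P A := by
    refine ContinuousLinearMap.ext fun ξ => ?_
    have h2 : P A (T (P A ξ)) - T (P A ξ) = 0 := by
      refine h.nondeg _ fun B hB => ?_
      rw [map_sub, h.mul_apply hB hA]
      have h3 : P B = P (B ∩ A) + P (B \ A) := by
        rw [← h.add _ _ (hB.inter hA) (hB.diff hA)
          (Set.disjoint_left.mpr fun x hx hx' => hx'.2 hx.2), Set.inter_union_diff]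
      have h4 : P (B \ A) (T (P A ξ)) = 0 :=
        congrArg (fun S : HH →L[ℂ] HH => S ξ) (h0 _ _ (hB.diff hA) hA Set.disjoint_sdiff_left)
      rw [h3, ContinuousLinearMap.add_apply, h4, add_zero, sub_self]
    exact sub_eq_zero.mp h2
  have h2 := congrArg adjoint h1
  rw [← star_eq_adjoint, ← star_eq_adjoint, star_mul, star_mul, star_mul, star_eq_adjoint,
    star_eq_adjoint, h.adj A hA, hT] at h2
  rw [← h2, ← mul_assoc, h1]

end top

end Fam

end Vale.Agent.P092.H911
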