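import Vale.Agent.P092.H911.Yop

/-!
P092 (helper911), block B-5: the function `κ` and its invariance properties.
-/

set_option linter.all false

open scoped InnerProductSpace ENNReal
open MeasureTheory Filter Topology ContinuousLinearMap

namespace Vale.Agent.P092.H911

variable {ι G₁ G₂ HH X Γ : Type*} [Fintype ι] [Group G₁] [Group G₂] [TopologicalSpace G₁]
    [TopologicalSpace G₂] [Group X] [Group Γ] [NormedAddCommGroup HH] [InnerProductSpace ℂ HH]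
    [CompleteSpace HH] {R : X →* (HH →L[ℂ] HH)} {V : Γ →* (HH →L[ℂ] HH)} {ξ₀ : ι → HH}
    {i : Γ →* G₁ × G₂} {π : X →* G₁ × G₂} {P₁ : Set G₁ → (HH →L[ℂ] HH)}
    {P₂ : Set G₂ → (HH →L[ℂ] HH)}

/-- `κ_h(C, E)` -/
noncomputable def kap [MeasurableSpace (G₁ × G₂)] (μ : Measure (G₁ × G₂))
    (P₁ : Set G₁ → (HH →L[ℂ] HH)) (P₂ : Set G₂ → (HH →L[ℂ] HH))
    (ξ₀ : ι → HH) (C E : Set G₁) (D : Set G₂) (h : G₁ × G₂) : ℝ≥0∞ :=
  ∑ k, ∫⁻ ω, ‖Yop P₁ P₂ C E D h ω (ξ₀ k)‖ₑ ^ 2 ∂μ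

section gen

variable [IsTopologicalGroup G₁] [IsTopologicalGroup G₂] {C E : Set G₁} {D : Set G₂}
  [MeasurableSpace (G₁ × G₂)] [BorelSpace (G₁ × G₂)]
  (μ : Measure (G₁ × G₂)) [μ.IsMulLeftInvariant]

theorem Dat.kap_symm (d : Dat R V ξ₀ i π P₁ P₂) [Countable X] (hC : CO C) (hE : CO E) (hD : CO D)
    (h : G₁ × G₂) : kap μ P₁ P₂ ξ₀ C E D h = kap μ P₁ P₂ ξ₀ E C D h := by
  have h1 := d.trace μ hC hE hD h 1 (fun z => by rw [one_mul, mul_one]) (fun v => by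
    rw [← star_eq_adjoint, star_one]; rfl)
  exact h1

theorem Dat.kap_gam (d : Dat R V ξ₀ i π P₁ P₂) [Countable X] (hC : CO C) (hE : CO E) (hD : CO D)
    (h : G₁ × G₂) (g : Γ) : kap μ P₁ P₂ ξ₀ C E D (h * i g) = kap μ P₁ P₂ ξ₀ C E D h := by
  have h1 : kap μ P₁ P₂ ξ₀ C E D (h * i g) =
      ∑ k, ∫⁻ ω, ‖Yop P₁ P₂ C E D h ω (V g (ξ₀ k))‖ₑ ^ 2 ∂μ := by
    refine Finset.sum_congr rfl fun k _ => lintegral_congr fun ω => ?_
    have h2 := congrArg (fun T : HH →L[ℂ] HH => T (ξ₀ k)) (d.covV hC hE hD (h * i g) ω g)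
    rw [mul_inv_cancel_right] at h2
    change V g (Yop P₁ P₂ C E D (h * i g) ω (ξ₀ k)) = Yop P₁ P₂ C E D h ω (V g (ξ₀ k)) at h2
    rw [← h2, ← ofReal_norm_eq_enorm, ← ofReal_norm_eq_enorm, d.norm_V]
  rw [h1, d.trace μ hC hE hD h (V g) (d.VR g) (fun v => by rw [d.Vadj, d.norm_V])]
  exact (d.kap_symm μ hE hC hD h)

theorem kap_tr [μ.IsMulRightInvariant] (a b h : G₁ × G₂) :
    kap μ P₁ P₂ ξ₀ (tr a.1 b.1 C) (tr a.1 b.1 E) (tr a.2 b.2 D) h =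
      kap μ P₁ P₂ ξ₀ C E D (a * h) := by
  have h1 : ∀ ω, Yop P₁ P₂ (tr a.1 b.1 C) (tr a.1 b.1 E) (tr a.2 b.2 D) h ω =
      Yop P₁ P₂ C E D (a * h) (ω * b) := fun ω => by
    rw [Yop, Yop, tr_tr, tr_tr, tr_tr]
    rfl
  rw [kap, kap]
  refine Finset.sum_congr rfl fun k _ => ?_
  rw [← lintegral_mul_right_eq_self (fun ω => ‖Yop P₁ P₂ C E D (a * h) ω (ξ₀ k)‖ₑ ^ 2) b]
  exact lintegral_congr fun ω => by rw [h1]

theorem meas_Y (hC : CO C) (hE : CO E) (hD : CO D) (h : G₁ × G₂) (v : HH) :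
    Measurable fun ω => ‖Yop P₁ P₂ C E D h ω v‖ₑ ^ 2 := by
  have h1 : Continuous fun ω => Yop P₁ P₂ C E D h ω v :=
    (Yop_cont hC hE hD h).clm_apply continuous_const
  exact (h1.enorm.measurable).pow_const 2

theorem Dat.kap_add (d : Dat R V ξ₀ i π P₁ P₂) {E' : Set G₁} (hC : CO C) (hE : CO E)
    (hE' : CO E') (hd : Disjoint E E') (hD : CO D) (h : G₁ × G₂) :
    kap μ P₁ P₂ ξ₀ C (E ∪ E') D h = kap μ P₁ P₂ ξ₀ C E D h + kap μ P₁ P₂ ξ₀ C E' D h := by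
  rw [kap, kap, kap, ← Finset.sum_add_distrib]
  refine Finset.sum_congr rfl fun k _ => ?_
  rw [← lintegral_add_left (meas_Y hC hE hD h (ξ₀ k))]
  refine lintegral_congr fun ω => ?_
  exact d.fam₁.fa _ _ _ (hE.tr _ _) (hE'.tr _ _) (tr_disj _ _ hd)

theorem kap_left_ev (hC : CO C) (hE : CO E) (hD : CO D) :
    ∀ᶠ u in 𝓝 (1 : G₁ × G₂), ∀ h, kap μ P₁ P₂ ξ₀ C E D (u * h) = kap μ P₁ P₂ ξ₀ C E D h := by
  filter_upwards [Yop_left_ev (P₁ := P₁) (P₂ := P₂) hC hE hD] with u hu h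
  exact Finset.sum_congr rfl fun k _ => lintegral_congr fun ω => by rw [hu]

theorem kap_cont (hC : CO C) (hE : CO E) (hD : CO D) :
    Continuous fun h => kap μ P₁ P₂ ξ₀ C E D h := by
  refine cont_of_ev fun h => ?_
  have h1 : Tendsto (fun h' => h' * h⁻¹) (𝓝 h) (𝓝 1) := by
    have := (continuous_mul_const h⁻¹).tendsto h
    rwa [mul_inv_cancel] at this
  filter_upwards [h1.eventually (kap_left_ev (P₁ := P₁) (P₂ := P₂) (ξ₀ := ξ₀) μ hC hE hD)] with h' hh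
  have := hh h
  rwa [inv_mul_cancel_right] at this

theorem Dat.kap_zero (d : Dat R V ξ₀ i π P₁ P₂) (hC : CO C) (hE : CO E) (hD : CO D)
    [μ.IsOpenPosMeasure] (h0 : kap μ P₁ P₂ ξ₀ C E D 1 = 0) : P₁ E * (P₂ D * P₁ C) = 0 := by
  have h1 : ∀ k ω, Yop P₁ P₂ C E D 1 ω (ξ₀ k) = 0 := by
    intro k
    rw [kap, Finset.sum_eq_zero_iff] at h0
    replace h0 := h0 k (Finset.mem_univ k)
    rw [lintegral_eq_zero_iff (meas_Y hC hE hD 1 (ξ₀ k))] at h0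
    have h2 : Continuous fun ω => Yop P₁ P₂ C E D 1 ω (ξ₀ k) :=
      (Yop_cont hC hE hD 1).clm_apply continuous_const
    have h3 : (fun ω => Yop P₁ P₂ C E D 1 ω (ξ₀ k)) =ᵐ[μ] fun _ => 0 := by
      filter_upwards [h0] with ω hω
      simpa using hω
    exact fun ω => congrFun ((h2.ae_eq_iff_eq μ continuous_const).mp h3) ω
  have h2 : ∀ k z, Yop P₁ P₂ C E D 1 1 (R z (ξ₀ k)) = 0 := fun k z => by
    have h3 := congrArg (fun T : HH →L[ℂ] HH => T (ξ₀ k)) (d.covR hC hE hD 1 (π z)⁻¹ z)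
    rw [mul_inv_cancel] at h3
    change R z (Yop P₁ P₂ C E D 1 (π z)⁻¹ (ξ₀ k)) = Yop P₁ P₂ C E D 1 1 (R z (ξ₀ k)) at h3
    rw [← h3, h1, map_zero]
  have h3 : Yop P₁ P₂ E C D 1 1 = 0 := by
    refine ContinuousLinearMap.ext fun v => d.total fun k z => ?_
    rw [← d.Yadj hC hE hD, adjoint_inner_right, h2, inner_zero_left]
  have h4 : Yop P₁ P₂ C E D 1 1 = 0 := by
    rw [← d.Yadj hE hC hD, h3, map_zero]
  rw [Yop] at h4
  simpa only [Prod.fst_one, Prod.snd_one, tr_one] using h4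

end gen

section bound

variable [IsTopologicalGroup G₁] [IsTopologicalGroup G₂] {C E : Set G₁} {D : Set G₂}
  [SecondCountableTopology G₁] [SecondCountableTopology G₂] [T2Space G₁] [T2Space G₂]
  [NonarchimedeanGroup G₁] [NonarchimedeanGroup G₂] [LocallyCompactSpace G₁]
  [LocallyCompactSpace G₂]
  [MeasurableSpace G₁] [BorelSpace G₁] [MeasurableSpace G₂] [BorelSpace G₂]
  (μ₁ : Measure G₁) [μ₁.IsMulLeftInvariant] (μ₂ : Measure G₂) [μ₂.IsMulLeftInvariant]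
  [SFinite μ₁] [SFinite μ₂]

theorem Dat.kap_le (d : Dat R V ξ₀ i π P₁ P₂) (hC : CO C) (hE : CO E) (hD : CO D) (h : G₁ × G₂) :
    kap (μ₁.prod μ₂) P₁ P₂ ξ₀ C E D h ≤ Fintype.card ι * (μ₁ C * μ₂ D) := by
  have hc : ∀ k, Continuous fun ω : G₁ × G₂ => P₂ (tr h.2 ω.2 D) (P₁ (tr h.1 ω.1 C) (ξ₀ k)) := by
    intro k
    refine cont_of_ev fun ω => ?_
    filter_upwards [(continuous_fst.tendsto ω).eventually (tr_right_ev hC h.1 ω.1),
      (continuous_snd.tendsto ω).eventually (tr_right_ev hD h.2 ω.2)] with ω' e1 e2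
    rw [e1, e2]
  have h1 : ∀ k, ∫⁻ ω, ‖Yop P₁ P₂ C E D h ω (ξ₀ k)‖ₑ ^ 2 ∂(μ₁.prod μ₂) ≤ μ₁ C * μ₂ D := by
    intro k
    calc
      _ ≤ ∫⁻ ω, ‖P₂ (tr h.2 ω.2 D) (P₁ (tr h.1 ω.1 C) (ξ₀ k))‖ₑ ^ 2 ∂(μ₁.prod μ₂) := by
          refine lintegral_mono fun ω => ?_
          exact d.fam₁.fa_le _ (hE.tr _ _)
      _ = ∫⁻ x, ∫⁻ y, ‖P₂ (tr h.2 y D) (P₁ (tr h.1 x C) (ξ₀ k))‖ₑ ^ 2 ∂μ₂ ∂μ₁ :=
          lintegral_prod _ (((hc k).enorm.measurable).pow_const 2).aemeasurable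
      _ ≤ ∫⁻ x, ‖P₁ (tr h.1 x C) (ξ₀ k)‖ₑ ^ 2 * μ₂ D ∂μ₁ := by
          refine lintegral_mono fun x => ?_
          exact lintegral_bd μ₂ (d.fam₂.fa _) (d.fam₂.fa_emp _) (fun A hA => d.fam₂.fa_le _ hA) hD h.2
      _ = (∫⁻ x, ‖P₁ (tr h.1 x C) (ξ₀ k)‖ₑ ^ 2 ∂μ₁) * μ₂ D := by
          rw [lintegral_mul_const]
          have h1 : Continuous fun x => P₁ (tr h.1 x C) (ξ₀ k) := by
            refine cont_of_ev fun x => ?_
            filter_upwards [tr_right_ev hC h.1 x] with x' e1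
            rw [e1]
          exact (h1.enorm.measurable).pow_const 2
      _ ≤ (‖ξ₀ k‖ₑ ^ 2 * μ₁ C) * μ₂ D := by
          gcongr
          exact lintegral_bd μ₁ (d.fam₁.fa _) (d.fam₁.fa_emp _) (fun A hA => d.fam₁.fa_le _ hA) hC h.1
      _ ≤ (1 * μ₁ C) * μ₂ D := by
          gcongr
          rw [← ofReal_norm_eq_enorm, ← ENNReal.ofReal_pow (norm_nonneg _)]
          rw [ENNReal.ofReal_le_one]
          have := d.norm_ξ₀ k
          have h0 := norm_nonneg (ξ₀ k)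
          nlinarith
      _ = μ₁ C * μ₂ D := by rw [one_mul]
  rw [kap]
  calc _ ≤ ∑ k : ι, μ₁ C * μ₂ D := Finset.sum_le_sum fun k _ => h1 k
    _ = _ := by rw [Finset.sum_const, Finset.card_univ, nsmul_eq_mul]

end bound

end Vale.Agent.P092.H911
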