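import Vale.Agent.P092.H911.Fam

/-!
P092 (helper911), block B-5: the operators `P₁(h₁⁻¹ E x⁻¹) P₂(h₂⁻¹ D y⁻¹) P₁(h₁⁻¹ C x⁻¹)` and the
trace trick.
-/

set_option linter.all false

open scoped InnerProductSpace ENNReal
open MeasureTheory Filter Topology ContinuousLinearMap

namespace Vale.Agent.P092.H911

/-- The data of block B-5: `R` regular, `V` commutes with `R`, both families are covariant. -/
structure Dat {ι G₁ G₂ HH X Γ : Type*} [Fintype ι] [Group G₁] [Group G₂] [TopologicalSpace G₁]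
    [TopologicalSpace G₂] [Group X] [Group Γ] [NormedAddCommGroup HH] [InnerProductSpace ℂ HH]
    [CompleteSpace HH] (R : X →* (HH →L[ℂ] HH)) (V : Γ →* (HH →L[ℂ] HH)) (ξ₀ : ι → HH)
    (i : Γ →* G₁ × G₂) (π : X →* G₁ × G₂) (P₁ : Set G₁ → (HH →L[ℂ] HH))
    (P₂ : Set G₂ → (HH →L[ℂ] HH)) : Prop where
  Radj : ∀ z, adjoint (R z) = R z⁻¹
  Vadj : ∀ g, adjoint (V g) = V g⁻¹
  VR : ∀ g z, V g * R z = R z * V g
  pars : ∀ v : HH, HasSum (fun p : ι × X => ‖⟪R p.2 (ξ₀ p.1), v⟫_ℂ‖ ^ 2) (‖v‖ ^ 2)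
  fam₁ : Fam P₁
  fam₂ : Fam P₂
  covV₁ : ∀ g A, CO A → V g * P₁ A = P₁ (tr (i g).1⁻¹ 1 A) * V g
  covV₂ : ∀ g A, CO A → V g * P₂ A = P₂ (tr (i g).2⁻¹ 1 A) * V g
  covR₁ : ∀ z A, CO A → R z * P₁ A = P₁ (tr 1 (π z).1 A) * R z
  covR₂ : ∀ z A, CO A → R z * P₂ A = P₂ (tr 1 (π z).2 A) * R z

variable {ι G₁ G₂ HH X Γ : Type*} [Fintype ι] [Group G₁] [Group G₂] [TopologicalSpace G₁]
    [TopologicalSpace G₂] [Group X] [Group Γ] [NormedAddCommGroup HH] [InnerProductSpace ℂ HH]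
    [CompleteSpace HH] {R : X →* (HH →L[ℂ] HH)} {V : Γ →* (HH →L[ℂ] HH)} {ξ₀ : ι → HH}
    {i : Γ →* G₁ × G₂} {π : X →* G₁ × G₂} {P₁ : Set G₁ → (HH →L[ℂ] HH)}
    {P₂ : Set G₂ → (HH →L[ℂ] HH)}

/-- the basic operator -/
noncomputable def Yop (P₁ : Set G₁ → (HH →L[ℂ] HH)) (P₂ : Set G₂ → (HH →L[ℂ] HH)) (C E : Set G₁)
    (D : Set G₂) (h ω : G₁ × G₂) : HH →L[ℂ] HH :=
  P₁ (tr h.1 ω.1 E) * (P₂ (tr h.2 ω.2 D) * P₁ (tr h.1 ω.1 C))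

theorem adj_mul (S T : HH →L[ℂ] HH) : adjoint (S * T) = adjoint T * adjoint S := by
  rw [← star_eq_adjoint, star_mul]; rfl

section alg

variable [IsTopologicalGroup G₁] [IsTopologicalGroup G₂] {C E : Set G₁} {D : Set G₂}

theorem Dat.Yadj (d : Dat R V ξ₀ i π P₁ P₂) (hC : CO C) (hE : CO E) (hD : CO D)
    (h ω : G₁ × G₂) : adjoint (Yop P₁ P₂ C E D h ω) = Yop P₁ P₂ E C D h ω := by
  rw [Yop, Yop, adj_mul, adj_mul, d.fam₁.adj _ (hE.tr _ _), d.fam₁.adj _ (hC.tr _ _),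
    d.fam₂.adj _ (hD.tr _ _), mul_assoc]

theorem Dat.covR (d : Dat R V ξ₀ i π P₁ P₂) (hC : CO C) (hE : CO E) (hD : CO D)
    (h ω : G₁ × G₂) (z : X) :
    R z * Yop P₁ P₂ C E D h ω = Yop P₁ P₂ C E D h (π z * ω) * R z := by
  rw [Yop, Yop, ← mul_assoc, d.covR₁ z _ (hE.tr _ _), mul_assoc, ← mul_assoc (R z),
    d.covR₂ z _ (hD.tr _ _), mul_assoc (P₂ _) (R z), d.covR₁ z _ (hC.tr _ _)]
  simp only [tr_tr, mul_one, Prod.fst_mul, Prod.snd_mul, mul_assoc]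

theorem Dat.covV (d : Dat R V ξ₀ i π P₁ P₂) (hC : CO C) (hE : CO E) (hD : CO D)
    (h ω : G₁ × G₂) (g : Γ) :
    V g * Yop P₁ P₂ C E D h ω = Yop P₁ P₂ C E D (h * (i g)⁻¹) ω * V g := by
  rw [Yop, Yop, ← mul_assoc, d.covV₁ g _ (hE.tr _ _), mul_assoc, ← mul_assoc (V g),
    d.covV₂ g _ (hD.tr _ _), mul_assoc (P₂ _) (V g), d.covV₁ g _ (hC.tr _ _)]
  simp only [tr_tr, one_mul, Prod.fst_mul, Prod.snd_mul, Prod.fst_inv, Prod.snd_inv, mul_assoc]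

theorem R_inv (z : X) : R z⁻¹ * R z = 1 := by rw [← map_mul, inv_mul_cancel, map_one]

theorem V_inv (g : Γ) : V g * V g⁻¹ = 1 := by rw [← map_mul, mul_inv_cancel, map_one]

theorem Dat.norm_V (d : Dat R V ξ₀ i π P₁ P₂) (g : Γ) (v : HH) : ‖V g v‖ = ‖v‖ := by
  have h1 : ⟪V g v, V g v⟫_ℂ = ⟪v, v⟫_ℂ := by
    rw [← adjoint_inner_right, d.Vadj]
    congr 1
    exact congrArg (fun T : HH →L[ℂ] HH => T v) (show V g⁻¹ * V g = 1 by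
      rw [← map_mul, inv_mul_cancel, map_one])
  rw [inner_self_eq_norm_sq_to_K, inner_self_eq_norm_sq_to_K] at h1
  have h2 : ‖V g v‖ ^ 2 = ‖v‖ ^ 2 := by exact_mod_cast h1
  exact (pow_left_inj₀ (norm_nonneg _) (norm_nonneg _) two_ne_zero).mp h2

theorem Dat.total (d : Dat R V ξ₀ i π P₁ P₂) {v : HH} (h : ∀ k z, ⟪R z (ξ₀ k), v⟫_ℂ = 0) :
    v = 0 := by
  have h1 := d.pars v
  simp only [h, norm_zero, ne_eq, OfNat.ofNat_ne_zero, not_false_eq_true, zero_pow] at h1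
  have h2 := h1.unique hasSum_zero
  exact norm_eq_zero.mp (pow_eq_zero_iff two_ne_zero |>.mp h2)

theorem Dat.norm_ξ₀ (d : Dat R V ξ₀ i π P₁ P₂) (k : ι) : ‖ξ₀ k‖ ≤ 1 := by
  obtain ⟨x, hx⟩ : ∃ x, x = ξ₀ k := ⟨_, rfl⟩
  have h1 := d.pars x
  have h2 : ‖⟪R 1 x, x⟫_ℂ‖ ^ 2 ≤ ‖x‖ ^ 2 := by
    have := le_hasSum h1 (k, 1) fun z _ => by positivity
    simpa only [← hx] using this
  rw [map_one] at h2
  change ‖⟪x, x⟫_ℂ‖ ^ 2 ≤ _ at h2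
  rw [inner_self_eq_norm_sq_to_K] at h2
  have h3 : ‖((‖x‖ : ℂ)) ^ 2‖ = ‖x‖ ^ 2 := by
    rw [norm_pow, Complex.norm_real, Real.norm_of_nonneg (norm_nonneg _)]
  rw [show (RCLike.ofReal ‖x‖ : ℂ) = (‖x‖ : ℂ) from rfl, h3] at h2
  have h4 := norm_nonneg x
  rw [← hx]
  by_contra hc
  push Not at hc
  have h5 : 1 < ‖x‖ ^ 2 := by nlinarith
  nlinarith

/-- Parseval in `ℝ≥0∞`. -/
theorem Dat.parse (d : Dat R V ξ₀ i π P₁ P₂) (v : HH) :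
    ‖v‖ₑ ^ 2 = ∑' p : ι × X, ‖⟪R p.2 (ξ₀ p.1), v⟫_ℂ‖ₑ ^ 2 := by
  have h1 := d.pars v
  have h2 : ‖v‖ₑ ^ 2 = ENNReal.ofReal (‖v‖ ^ 2) := by
    rw [← ofReal_norm_eq_enorm, ENNReal.ofReal_pow (norm_nonneg _)]
  rw [h2, ← h1.tsum_eq, ENNReal.ofReal_tsum_of_nonneg (fun z => by positivity) h1.summable]
  refine tsum_congr fun z => ?_
  rw [← ofReal_norm_eq_enorm, ENNReal.ofReal_pow (norm_nonneg _)]

end alg

section cont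

variable [IsTopologicalGroup G₁] [IsTopologicalGroup G₂] {C E : Set G₁} {D : Set G₂}

theorem cont_of_ev {α β : Type*} [TopologicalSpace α] [TopologicalSpace β] {f : α → β}
    (h : ∀ x, ∀ᶠ y in 𝓝 x, f y = f x) : Continuous f :=
  continuous_iff_continuousAt.mpr fun x => (continuousAt_const (y := f x)).congr
    ((h x).mono fun y hy => hy.symm)

theorem Yop_ev (hC : CO C) (hE : CO E) (hD : CO D) (h ω : G₁ × G₂) :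
    ∀ᶠ ω' in 𝓝 ω, Yop P₁ P₂ C E D h ω' = Yop P₁ P₂ C E D h ω := by
  have h1 := (continuous_fst.tendsto ω).eventually (tr_right_ev hC h.1 ω.1)
  have h2 := (continuous_fst.tendsto ω).eventually (tr_right_ev hE h.1 ω.1)
  have h3 := (continuous_snd.tendsto ω).eventually (tr_right_ev hD h.2 ω.2)
  filter_upwards [h1, h2, h3] with ω' e1 e2 e3
  rw [Yop, Yop, e1, e2, e3]

theorem Yop_left_ev (hC : CO C) (hE : CO E) (hD : CO D) :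
    ∀ᶠ u in 𝓝 (1 : G₁ × G₂), ∀ h ω, Yop P₁ P₂ C E D (u * h) ω = Yop P₁ P₂ C E D h ω := by
  have h1 := (continuous_fst.tendsto (1 : G₁ × G₂)).eventually (tr_left_ev hC)
  have h2 := (continuous_fst.tendsto (1 : G₁ × G₂)).eventually (tr_left_ev hE)
  have h3 := (continuous_snd.tendsto (1 : G₁ × G₂)).eventually (tr_left_ev hD)
  filter_upwards [h1, h2, h3] with u e1 e2 e3 h ω
  rw [Yop, Yop, Prod.fst_mul, Prod.snd_mul, e1, e2, e3]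

theorem Yop_cont (hC : CO C) (hE : CO E) (hD : CO D) (h : G₁ × G₂) :
    Continuous fun ω => Yop P₁ P₂ C E D h ω :=
  cont_of_ev fun ω => Yop_ev hC hE hD h ω

end cont

section trace

variable [IsTopologicalGroup G₁] [IsTopologicalGroup G₂] {C E : Set G₁} {D : Set G₂}
  [MeasurableSpace (G₁ × G₂)] [BorelSpace (G₁ × G₂)] [Countable X]
  (μ : Measure (G₁ × G₂)) [μ.IsMulLeftInvariant]

/-- **Trace trick.** -/
theorem Dat.trace (d : Dat R V ξ₀ i π P₁ P₂) (hC : CO C) (hE : CO E) (hD : CO D)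
    (h : G₁ × G₂) (U : HH →L[ℂ] HH) (hU : ∀ z, U * R z = R z * U)
    (hU1 : ∀ v, ‖adjoint U v‖ = ‖v‖) :
    ∑ k, ∫⁻ ω, ‖Yop P₁ P₂ C E D h ω (U (ξ₀ k))‖ₑ ^ 2 ∂μ =
      ∑ k, ∫⁻ ω, ‖Yop P₁ P₂ E C D h ω (ξ₀ k)‖ₑ ^ 2 ∂μ := by
  have hm : ∀ {C E : Set G₁} (hC : CO C) (hE : CO E) (v w : HH), Measurable fun ω =>
      ‖⟪w, Yop P₁ P₂ C E D h ω v⟫_ℂ‖ₑ ^ 2 := by
    intro C E hC hE v w
    have h1 : Continuous fun ω => Yop P₁ P₂ C E D h ω v :=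
      (Yop_cont hC hE hD h).clm_apply continuous_const
    have h2 : Continuous fun ω => ⟪w, Yop P₁ P₂ C E D h ω v⟫_ℂ := continuous_const.inner h1
    exact (h2.enorm.measurable).pow_const 2
  have hm' : ∀ k (p : ι × X), AEMeasurable (fun ω =>
      ‖⟪R p.2 (ξ₀ p.1), adjoint U (Yop P₁ P₂ E C D h ω (ξ₀ k))⟫_ℂ‖ₑ ^ 2) μ := by
    intro k p
    have h1 : Continuous fun ω => Yop P₁ P₂ E C D h ω (ξ₀ k) :=
      (Yop_cont hE hC hD h).clm_apply continuous_const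
    have h2 : Continuous fun ω => ⟪R p.2 (ξ₀ p.1), adjoint U (Yop P₁ P₂ E C D h ω (ξ₀ k))⟫_ℂ :=
      continuous_const.inner ((adjoint U).continuous.comp h1)
    exact ((h2.enorm.measurable).pow_const 2).aemeasurable
  have h1 : ∀ k, ∫⁻ ω, ‖Yop P₁ P₂ C E D h ω (U (ξ₀ k))‖ₑ ^ 2 ∂μ =
      ∑' l, ∑' z, ∫⁻ ω, ‖⟪R z (ξ₀ l), Yop P₁ P₂ C E D h ω (U (ξ₀ k))⟫_ℂ‖ₑ ^ 2 ∂μ := fun k => by
    rw [← ENNReal.tsum_prod' (f := fun p : ι × X =>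
      ∫⁻ ω, ‖⟪R p.2 (ξ₀ p.1), Yop P₁ P₂ C E D h ω (U (ξ₀ k))⟫_ℂ‖ₑ ^ 2 ∂μ),
      ← lintegral_tsum (fun p => (hm hC hE _ _).aemeasurable)]
    exact lintegral_congr fun ω => d.parse _
  have h2 : ∀ k, ∫⁻ ω, ‖Yop P₁ P₂ E C D h ω (ξ₀ k)‖ₑ ^ 2 ∂μ =
      ∑' l, ∑' z, ∫⁻ ω, ‖⟪R z (ξ₀ l), adjoint U (Yop P₁ P₂ E C D h ω (ξ₀ k))⟫_ℂ‖ₑ ^ 2 ∂μ :=
      fun k => by
    rw [← ENNReal.tsum_prod' (f := fun p : ι × X =>
      ∫⁻ ω, ‖⟪R p.2 (ξ₀ p.1), adjoint U (Yop P₁ P₂ E C D h ω (ξ₀ k))⟫_ℂ‖ₑ ^ 2 ∂μ),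
      ← lintegral_tsum (fun p => hm' k p)]
    refine lintegral_congr fun ω => ?_
    rw [← d.parse, ← ofReal_norm_eq_enorm, ← ofReal_norm_eq_enorm, hU1]
  simp only [h1, h2, tsum_fintype]
  rw [Finset.sum_comm]
  refine Finset.sum_congr rfl fun l _ => Finset.sum_congr rfl fun k _ => ?_
  rw [← (Equiv.inv X).tsum_eq]
  refine tsum_congr fun z => ?_
  rw [← lintegral_mul_left_eq_self _ (π z)⁻¹]
  refine lintegral_congr fun ω => ?_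
  congr 1
  have e1 : R z (Yop P₁ P₂ C E D h ((π z)⁻¹ * ω) (U (ξ₀ k))) =
      Yop P₁ P₂ C E D h ω (U (R z (ξ₀ k))) := by
    have h3 := congrArg (fun T : HH →L[ℂ] HH => T (U (ξ₀ k))) (d.covR hC hE hD h ((π z)⁻¹ * ω) z)
    rw [mul_inv_cancel_left] at h3
    have h4 := congrArg (fun T : HH →L[ℂ] HH => T (ξ₀ k)) (hU z)
    change R z (Yop P₁ P₂ C E D h ((π z)⁻¹ * ω) (U (ξ₀ k))) =
      Yop P₁ P₂ C E D h ω (R z (U (ξ₀ k))) at h3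
    change U (R z (ξ₀ k)) = R z (U (ξ₀ k)) at h4
    rw [h3, h4]
  have e2 : ⟪(R (Equiv.inv X z)) (ξ₀ l), Yop P₁ P₂ C E D h ((π z)⁻¹ * ω) (U (ξ₀ k))⟫_ℂ =
      ⟪ξ₀ l, Yop P₁ P₂ C E D h ω (U (R z (ξ₀ k)))⟫_ℂ := by
    rw [Equiv.inv_apply, ← d.Radj, adjoint_inner_left, e1]
  rw [e2]
  have e3 : ⟪R z (ξ₀ k), adjoint U (Yop P₁ P₂ E C D h ω (ξ₀ l))⟫_ℂ =
      ⟪Yop P₁ P₂ C E D h ω (U (R z (ξ₀ k))), ξ₀ l⟫_ℂ := by
    rw [adjoint_inner_right, ← d.Yadj hC hE hD, adjoint_inner_right]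
  rw [e3, ← inner_conj_symm, RCLike.enorm_conj]

end trace

end Vale.Agent.P092.H911
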